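import Vale.Agent.P354SI.Defs
import Vale.Agent.P354BO.Q2
import Vale.Agent.P354XT.Calc

/-!
The integrals over slabs, and the formal properties of the system.
-/

open scoped ContDiff
open MeasureTheory Set Filter

noncomputable section

namespace Vale.Agent.P354SI

open Vale.Agent.P354XG Vale.Agent.P354XD Vale.Agent.P354XR Vale.Agent.P354XI Vale.Agent.P354Z
open Vale.Agent.P354XT Vale.Agent.P354BO
open Vale.Agent.P354YH (wt sm Sys)

variable {P : Pr}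

theorem an_of {x : E6} (h : χ x.2.2 ≠ 0) : An x ∧ x.2.2 ∈ K := by
  have k : x.2.2 ∈ K := by
    by_contra d
    exact h (χ_out d)
  have e : P354XD.nq x = N x.2.2 := by simp [P354XD.nq, N, Complex.normSq_eq_norm_sq]
  exact ⟨⟨e ▸ k.1, e ▸ k.2⟩, k⟩

theorem fv_cont {O : Set E6} (hO : IsOpen O) (u : Sm (on O)) : ContinuousOn (fv u) O :=
  fun _ hx => (fv_sm hO u hx).continuousAt.continuousWithinAt

theorem q2_cont {O : Set E6} (hO : IsOpen O) {ι : Type} [Fintype ι] (X : ι → Der (Sm (on O))) :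
    ∀ (n : ℕ) (u : Sm (on O)), ContinuousOn (fun x => q2 X x n u) O
  | 0, u => (fv_cont hO u).norm.pow 2
  | n + 1, u => (q2_cont hO X n u).add (continuousOn_finsetSum _ fun a _ => q2_cont hO X n (X a u))

theorem sl_nn {a : ℝ} {c : ℝ → ℝ} {F : E6 → ℝ} (h : ∀ x, 0 ≤ c x.2.1 * F x) : 0 ≤ sl a c F :=
  integral_nonneg fun x => by
    have := mul_nonneg (mul_nonneg (bp_nonneg (x.1 - a)) (sq_nonneg (χ x.2.2))) (h x)
    exact this.trans_eq (by ring)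

namespace St
variable (σ : St P)

theorem cone : Cone σ.E.O1 := σ.is.shape.co1
include σ in
theorem M0 : 0 < P.c.M := (abs_nonneg _).trans_lt σ.ok.aM
include σ in
theorem r0_pos : 0 < P.c.r0 := σ.M0.trans σ.ok.r0
include σ in
theorem d_pos : 0 < P.c.d := σ.ok.d
include σ in
theorem r10 : P.c.r1 ≤ P.c.r0 := (le_add_of_nonneg_right σ.ok.d.le).trans σ.ok.r10.le

/-- The box. -/
theorem box {x : E6} (h0 : x.2.2 ≠ 0) (h1 : P.c.t1 - 2 ≤ x.1) (h2 : x.1 ≤ σ.T + P.c.c0 + 5)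
    (h3 : P.c.r0 ≤ x.2.1) (h4 : x.2.1 ≤ σ.R2) : x ∈ σ.E.O1 ∧ rv σ.E.sig x < σ.s := by
  refine σ.top.box x h0 ?_ h2 h3 h4
  have a := σ.ok.btt x.2.1 (σ.r10.trans h3)
  have b := mul_nonneg σ.ok.del.1.le (σ.r0_pos.le.trans h3)
  exact ((le_add_of_nonneg_right b).trans a).trans h1

/-- Slabs, radial weights and densities in the box. -/
def Sa (a : ℝ) : Prop := P.c.t1 - 1 < a ∧ a + 2 < σ.T + P.c.c0 + 5
def Wc (c : ℝ → ℝ) : Prop :=
  Continuous c ∧ ∃ x y, P.c.r0 < x ∧ y < σ.R2 ∧ ∀ r, r ∉ Icc x y → c r = 0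
def Cn (F : E6 → ℝ) : Prop := ContinuousOn F σ.E.O1

theorem sa {j : ℕ} (h : j ≤ σ.K + 2) : σ.Sa (P.c.t1 + j) := by
  have a : (j : ℝ) ≤ σ.K + 2 := by exact_mod_cast h
  have b : (1 : ℝ) ≤ P.c.c0 := σ.ok.c0
  exact ⟨by linarith [j.cast_nonneg (α := ℝ)], by linarith [σ.kT]⟩

theorem cn_q2 {ι : Type} [Fintype ι] (X : ι → Der (Sm (on σ.E.O1))) (n : ℕ) (u) :
    σ.Cn fun x => q2 X x n u := q2_cont σ.cone.op X n u
theorem cn_eta (n : ℕ) : σ.Cn (σ.E.eta n) := (σ.cn_q2 _ n _).add (σ.cn_q2 _ n _)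
theorem cn_sq (u : Sm (on σ.E.O1)) : σ.Cn fun x => ‖fv u x‖ ^ 2 := (fv_cont σ.cone.op u).norm.pow 2
theorem cn_rv (u : Sm (on σ.E.O1)) : σ.Cn (rv u) :=
  Complex.continuous_re.comp_continuousOn (fv_cont σ.cone.op u)
theorem cn_lv (m : ℕ) : σ.Cn (σ.lv m) :=
  continuousOn_finsetSum _ fun _ _ => continuousOn_finsetSum _ fun _ _ => σ.cn_sq _

theorem eta_nn (n : ℕ) (x : E6) : 0 ≤ σ.E.eta n x :=
  add_nonneg (q2_nonneg _ _ _ _) (q2_nonneg _ _ _ _)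
theorem eta_mono {n m : ℕ} (h : n ≤ m) (x : E6) : σ.E.eta n x ≤ σ.E.eta m x :=
  add_le_add (q2_mono _ _ h _) (q2_mono _ _ h _)
theorem lv_nn (m : ℕ) (x : E6) : 0 ≤ σ.lv m x := by unfold lv; positivity

variable {σ} {a : ℝ} {c c1 c2 c3 : ℝ → ℝ} {F F1 F2 F3 : E6 → ℝ} {j : ℕ}

theorem Wc.mul (h : σ.Wc c) (k : Continuous c1) : σ.Wc fun r => c r * c1 r := by
  obtain ⟨a, x, y, b1, b2, b3⟩ := h
  exact ⟨a.mul k, x, y, b1, b2, fun r hr => mul_eq_zero_of_left (b3 r hr) _⟩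

/-- The product of an inner and an outer cut off. -/
theorem wc_of {x x' y y' : ℝ} (h1 : P.c.r0 < x) (h2 : x < x') (h3 : y < y') (h4 : y' < σ.R2) :
    σ.Wc fun r => up x x' r * dn y y' r :=
  ⟨(up_sm _ _).continuous.mul (dn_sm _ _).continuous, x, y', h1, h4, fun r hr => by
    rcases not_and_or.1 hr with h | h
    · exact mul_eq_zero_of_left (up_zero h2 (not_le.1 h).le) _
    · exact mul_eq_zero_of_right _ (dn_zero h3 (not_le.1 h).le)⟩

theorem wc_out {x x' : ℝ} (h1 : P.c.r0 < x) (h2 : x < x') (R : ℝ) :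
    σ.Wc fun r => up x x' r * σ.out R r :=
  wc_of h1 h2 (lt_add_one _) (by linarith [min_le_right R (σ.R2 - 2)])

/-- The points which carry the weight. -/
theorem pt_of (ha : σ.Sa a) (hc : σ.Wc c) {x : E6} (h : bp (x.1 - a) * c x.2.1 * χ x.2.2 ^ 2 ≠ 0) :
    x ∈ σ.E.O1 ∧ An x ∧ a ≤ x.1 ∧ x.1 ≤ a + 2 := by
  obtain ⟨-, p, q, b1, b2, b3⟩ := hc
  have a1 : x.1 - a ∈ Icc (0 : ℝ) 2 := by
    by_contra d
    exact h (by rw [bp_out d, zero_mul, zero_mul])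
  have a2 : x.2.1 ∈ Icc p q := by
    by_contra d
    exact h (by rw [b3 _ d, mul_zero, zero_mul])
  have a3 := an_of (x := x) fun e => h (by rw [e]; ring)
  exact ⟨(σ.box (K_ne a3.2) (by linarith [ha.1, a1.1]) (by linarith [ha.2, a1.2])
    (by linarith [a2.1]) (by linarith [a2.2])).1, a3.1, by linarith [a1.1], by linarith [a1.2]⟩

theorem sl_int (ha : σ.Sa a) (hc : σ.Wc c) (hF : σ.Cn F) :
    Integrable fun x : E6 => bp (x.1 - a) * c x.2.1 * χ x.2.2 ^ 2 * F x := by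
  obtain ⟨hc0, p, q, b1, b2, b3⟩ := hc
  have k : IsCompact (Icc a (a + 2) ×ˢ Icc p q ×ˢ P354BO.K : Set E6) :=
    isCompact_Icc.prod (isCompact_Icc.prod K_cpt)
  have s : (Icc a (a + 2) ×ˢ Icc p q ×ˢ P354BO.K : Set E6) ⊆ σ.E.O1 := fun x hx =>
    (σ.box (K_ne hx.2.2) (by linarith [ha.1, hx.1.1]) (by linarith [ha.2, hx.1.2])
      (by linarith [hx.2.1.1]) (by linarith [hx.2.1.2])).1
  refine (integrableOn_iff_integrable_of_support_subset (s := Icc a (a + 2) ×ˢ Icc p q ×ˢ P354BO.K)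
    fun x hx => ?_).1 (ContinuousOn.integrableOn_compact k (ContinuousOn.mul ?_ (hF.mono s)))
  · refine ⟨?_, ?_, ?_⟩ <;> by_contra d <;> refine hx ?_ <;> beta_reduce
    · rw [bp_out (x := x.1 - a) fun e => d ⟨by linarith [e.1], by linarith [e.2]⟩]; ring
    · rw [b3 _ d]; ring
    · rw [χ_out d]; ring
  · exact (((bp_sm.continuous.comp (continuous_fst.sub continuous_const)).mul
      (hc0.comp continuous_snd.fst)).mul ((χ_sm.continuous.comp continuous_snd.snd).pow 2)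
      ).continuousOn

/-- Pointwise inequalities are integrated. -/
theorem sl_le3 {k1 k2 k3 : ℝ} (ha : σ.Sa a) (hc : σ.Wc c) (h1 : σ.Wc c1) (h2 : σ.Wc c2)
    (h3 : σ.Wc c3) (hF : σ.Cn F) (g1 : σ.Cn F1) (g2 : σ.Cn F2) (g3 : σ.Cn F3)
    (h : ∀ x ∈ σ.E.O1, An x → a ≤ x.1 → x.1 ≤ a + 2 → c x.2.1 * F x ≤
      k1 * (c1 x.2.1 * F1 x) + k2 * (c2 x.2.1 * F2 x) + k3 * (c3 x.2.1 * F3 x)) :
    sl a c F ≤ k1 * sl a c1 F1 + k2 * sl a c2 F2 + k3 * sl a c3 F3 := by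
  have i1 := (sl_int ha h1 g1).const_mul k1
  have i2 := (sl_int ha h2 g2).const_mul k2
  have i3 := (sl_int ha h3 g3).const_mul k3
  simp only [sl, ← integral_const_mul]
  rw [← integral_add' i1 i2, ← integral_add' (i1.add i2) i3]
  refine integral_mono (sl_int ha hc hF) ((i1.add i2).add i3) fun x => ?_
  by_cases e : x ∈ σ.E.O1 ∧ An x ∧ a ≤ x.1 ∧ x.1 ≤ a + 2
  · have := mul_le_mul_of_nonneg_left (h x e.1 e.2.1 e.2.2.1 e.2.2.2)
      (mul_nonneg (bp_nonneg (x.1 - a)) (sq_nonneg (χ x.2.2)))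
    simp only [Pi.add_apply]
    linarith
  · have z : ∀ {c}, σ.Wc c → bp (x.1 - a) * c x.2.1 * χ x.2.2 ^ 2 = 0 := fun hc => by
      by_contra d
      exact e (pt_of ha hc d)
    simp only [Pi.add_apply, z hc, z h1, z h2, z h3, zero_mul, mul_zero, add_zero, le_refl]

theorem sl_le2 {k1 k2 : ℝ} (ha : σ.Sa a) (hc : σ.Wc c) (h1 : σ.Wc c1) (h2 : σ.Wc c2)
    (hF : σ.Cn F) (g1 : σ.Cn F1) (g2 : σ.Cn F2)
    (h : ∀ x ∈ σ.E.O1, An x → a ≤ x.1 → x.1 ≤ a + 2 → c x.2.1 * F x ≤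
      k1 * (c1 x.2.1 * F1 x) + k2 * (c2 x.2.1 * F2 x)) :
    sl a c F ≤ k1 * sl a c1 F1 + k2 * sl a c2 F2 := by
  simpa using sl_le3 (k3 := 0) ha hc h1 h2 h2 hF g1 g2 g2 fun x a1 a2 a3 a4 => by
    simpa using h x a1 a2 a3 a4

theorem sl_le {k1 : ℝ} (ha : σ.Sa a) (hc : σ.Wc c) (h1 : σ.Wc c1) (hF : σ.Cn F) (g1 : σ.Cn F1)
    (h : ∀ x ∈ σ.E.O1, An x → a ≤ x.1 → x.1 ≤ a + 2 → c x.2.1 * F x ≤ k1 * (c1 x.2.1 * F1 x)) :
    sl a c F ≤ k1 * sl a c1 F1 := by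
  simpa using sl_le2 (k2 := 0) ha hc h1 h1 hF g1 g1 fun x a1 a2 a3 a4 => by
    simpa using h x a1 a2 a3 a4

theorem sj_eq (h : j ≤ σ.K) (c F) : σ.sj j c F = sl (P.c.t1 + j) c F := if_pos h

theorem sj_nn (h : ∀ x, 0 ≤ c x.2.1 * F x) : 0 ≤ σ.sj j c F := by
  unfold sj
  split_ifs
  exacts [sl_nn h, le_rfl]

theorem sj_le2 (hc : σ.Wc c) (h1 : σ.Wc c1) (h2 : σ.Wc c2) (hF : σ.Cn F) (g1 : σ.Cn F1)
    (g2 : σ.Cn F2) (h : ∀ x : E6, c x.2.1 * F x ≤ c1 x.2.1 * F1 x + c2 x.2.1 * F2 x) :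
    σ.sj j c F ≤ σ.sj j c1 F1 + σ.sj j c2 F2 := by
  unfold sj
  split_ifs with e
  · simpa using sl_le2 (k1 := 1) (k2 := 1) (σ.sa (e.trans (Nat.le_add_right _ _))) hc h1 h2 hF g1 g2
      fun x _ _ _ _ => by simpa using h x
  · simp

theorem sj_le (hc : σ.Wc c) (h1 : σ.Wc c1) (hF : σ.Cn F) (g1 : σ.Cn F1)
    (h : ∀ x : E6, c x.2.1 * F x ≤ c1 x.2.1 * F1 x) : σ.sj j c F ≤ σ.sj j c1 F1 := by
  unfold sj
  split_ifs with e
  · simpa using sl_le (k1 := 1) (σ.sa (e.trans (Nat.le_add_right _ _))) hc h1 hF g1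
      fun x _ _ _ _ => by simpa using h x
  · exact le_rfl

theorem out_nn (R r : ℝ) : 0 ≤ σ.out R r := dn_nonneg _ _ _

theorem out_mono {R R' : ℝ} (h : R ≤ R') (r : ℝ) : σ.out R r ≤ σ.out R' r := by
  simp only [out, dn, up, add_sub_cancel_left, div_one]
  exact sub_le_sub_left (Real.smoothTransition.monotone
    (sub_le_sub_left (min_le_min_right _ h) r)) 1

theorem out_one {R r : ℝ} (h : r ≤ R) (h' : r ≤ σ.R2 - 2) : σ.out R r = 1 :=
  dn_one (lt_add_one _) (le_min h h')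

theorem out_zero {R r : ℝ} (h : R + 1 ≤ r) : σ.out R r = 0 :=
  dn_zero (lt_add_one _) (by linarith [min_le_left R (σ.R2 - 2)])

variable (hP : P.Ok)
include hP

theorem wc_y (σ : St P) (R : ℝ) : σ.Wc fun r => P.ch r * σ.out R r :=
  wc_out (lt_add_of_pos_right _ σ.ok.d) hP.rI.1 R

theorem wc_x (σ : St P) (R : ℝ) : σ.Wc fun r => up (P.rb - 1) P.rb r * σ.out R r :=
  wc_out (by linarith [hP.rI.1, hP.rb, show 0 < P.c.d from σ.ok.d]) (sub_one_lt _) R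

end St

theorem Pr.Ok.ch_one (hP : P.Ok) {r : ℝ} (h : P.rI ≤ r) : P.ch r = 1 := up_one hP.rI.1 h

theorem Pr.Ok.up_le (hP : P.Ok) (r : ℝ) : up (P.rb - 1) P.rb r ≤ P.ch r := by
  rcases le_total r (P.rb - 1) with h | h
  · rw [up_zero (sub_one_lt _) h]; exact up_nonneg _ _ _
  · rw [hP.ch_one (by linarith [hP.rb])]; exact P354XT.up_le _ _ _

theorem fy_nn (n R) (σ : St P) (j) : 0 ≤ fy P n R σ j :=
  St.sj_nn fun x => mul_nonneg (mul_nonneg (up_nonneg _ _ _) (St.out_nn _ _)) (σ.eta_nn n x)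
theorem fx_nn (n R) (σ : St P) (j) : 0 ≤ fx P n R σ j :=
  St.sj_nn fun x => mul_nonneg (mul_nonneg (up_nonneg _ _ _) (St.out_nn _ _)) (σ.eta_nn n x)
theorem fh_pos (σ : St P) (j) : 0 < fh P σ j := mul_pos σ.e0 (by unfold wt; positivity)

theorem St.la_nn (σ : St P) (b : Bool) (u) (x : E6) : 0 ≤ σ.la b u x := by
  by_cases h : x ∈ σ.E.O1
  · have := (σ.cone.pos x h).1
    cases b <;> simp only [St.la, cond] <;> positivity
  · cases b <;> simp [St.la, fv_out _ h]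

theorem fB_nn (J R) (σ : St P) (j) : 0 ≤ fB P J R σ j :=
  Finset.sum_nonneg fun _ _ => Finset.sum_nonneg fun _ _ => St.sj_nn fun x =>
    mul_nonneg (mul_nonneg (up_nonneg _ _ _) (dn_nonneg _ _ _)) (σ.la_nn _ _ x)

theorem fy_mono (hP : P.Ok) {n n' : ℕ} {R R' : ℝ} (h : n ≤ n') (h' : R ≤ R') (σ : St P) (j) :
    fy P n R σ j ≤ fy P n' R' σ j :=
  St.sj_le (St.wc_y hP σ R) (St.wc_y hP σ R') (σ.cn_eta _) (σ.cn_eta _) fun x =>
    mul_le_mul (mul_le_mul_of_nonneg_left (St.out_mono h' _) (up_nonneg _ _ _)) (σ.eta_mono h x)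
      (σ.eta_nn _ x) (mul_nonneg (up_nonneg _ _ _) (St.out_nn _ _))

/-- The formal properties. -/
theorem form (hP : P.Ok) {G : ℕ → Filter (St P)} {Γ : ℕ → ℝ → St P → ℕ → ℝ} (hG : Antitone G)
    (hΓ : ∀ n R σ j, 0 ≤ Γ n R σ j) : (sys P G Γ).Form where
  anti _ _ h := inf_le_inf (F0_anti h) (hG h)
  Q0 := hP.Q0
  Q3 := hP.Q3
  s1 := hP.s1
  D0 σ := (sq_nonneg _).trans σ.dB
  h0 σ j := (fh_pos σ j).le
  y0 := fy_nn
  x0 := fx_nn
  i0 := fy_nn _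
  G0 := hΓ
  B0 := fB_nn
  ym h h' := fy_mono hP h h'
  xm {n n' R R'} h h' σ j :=
    St.sj_le (St.wc_x hP σ R) (St.wc_x hP σ R') (σ.cn_eta _) (σ.cn_eta _) fun x =>
      mul_le_mul (mul_le_mul_of_nonneg_left (St.out_mono h' _) (up_nonneg _ _ _)) (σ.eta_mono h x)
        (σ.eta_nn _ x) (mul_nonneg (up_nonneg _ _ _) (St.out_nn _ _))
  im h' := fy_mono hP le_rfl h'
  xy n R σ j := St.sj_le (St.wc_x hP σ R) (St.wc_y hP σ R) (σ.cn_eta _) (σ.cn_eta _) fun x =>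
    mul_le_mul_of_nonneg_right (mul_le_mul_of_nonneg_right (hP.up_le _) (St.out_nn _ _))
      (σ.eta_nn _ x)
  split n R R0 h σ j := St.sj_le2 (St.wc_y hP σ R) (St.wc_y hP σ R0) (St.wc_x hP σ R) (σ.cn_eta _)
    (σ.cn_eta _) (σ.cn_eta _) fun x => by
      rw [← add_mul]
      refine mul_le_mul_of_nonneg_right ?_ (σ.eta_nn _ x)
      have a1 : 0 ≤ P.ch x.2.1 := up_nonneg _ _ _
      have a2 := up_nonneg (P.rb - 1) P.rb x.2.1
      have a3 := St.out_nn (σ := σ) R x.2.1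
      have a4 := St.out_nn (σ := σ) R0 x.2.1
      have a5 : P.ch x.2.1 ≤ 1 := P354XT.up_le _ _ _
      have a6 : σ.out R x.2.1 ≤ 1 := dn_le _ _ _
      rcases le_total R R0 with e | e
      · nlinarith [mul_le_mul_of_nonneg_left (St.out_mono (σ := σ) e x.2.1) a1, mul_nonneg a2 a3]
      rcases le_total P.rb x.2.1 with e' | e'
      · rw [up_one (sub_one_lt _) e']
        nlinarith [mul_nonneg a1 a4, mul_le_mul_of_nonneg_right a5 a3]
      rcases le_total x.2.1 (σ.R2 - 2) with e2 | e2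
      · rw [St.out_one (e'.trans h) e2]
        nlinarith [mul_nonneg a2 a3, mul_le_mul_of_nonneg_left a6 a1]
      · have : σ.out R x.2.1 = σ.out R0 x.2.1 := by
          have b : σ.R2 - 2 ≤ R0 := e2.trans (e'.trans h)
          rw [St.out, St.out, min_eq_right b, min_eq_right (b.trans e)]
        nlinarith [mul_nonneg a2 a3]

theorem small {G : ℕ → Filter (St P)} {Γ : ℕ → ℝ → St P → ℕ → ℝ} : (sys P G Γ).SMALL :=
  fun _ e => ev_sys ((ev_e _ e).mono fun _ h _ _ =>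
    mul_le_mul_of_nonneg_right h.1 (by unfold wt; positivity))

end Vale.Agent.P354SI
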