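import Vale.Agent.P354CV.Mem
import Vale.Agent.P354XR.Raw
import Vale.Agent.P354XF.Out
import Vale.Agent.P354BO.TwO
import Vale.Agent.P354XL.Coef

/-!
The functionals of the hierarchy on the state of the estimates.
-/

open scoped ContDiff
open MeasureTheory Set Filter

noncomputable section

namespace Vale.Agent.P354SI

open Vale.Agent.P354XG Vale.Agent.P354XD Vale.Agent.P354XR Vale.Agent.P354XI Vale.Agent.P354Z
open Vale.Agent.P354XT (up dn bp Op)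
open Vale.Agent.P354BF (De rp)
open Vale.Agent.P354BO (χ kt)
open Vale.Agent.P354XL (sinv)
open Vale.Agent.P354YH (wt sm Sys)
open Vale.Agent.P354CV (Sup Tl)

/-- The integral of F over the slab which starts at the time a, with the radial weight c. -/
def sl (a : ℝ) (c : ℝ → ℝ) (F : E6 → ℝ) : ℝ :=
  ∫ x : E6, bp (x.1 - a) * c x.2.1 * χ x.2.2 ^ 2 * F x

/-- The operators in T = X 0, R = X 1 and the axial field X 4. -/
def oph {O : Set E6} (X : Fin 5 → Der (Sm (on O))) (M a : ℝ) : Op → Sm (on O) → Sm (on O)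
  | .one, u => u
  | .T e, u => X 0 (oph X M a e u)
  | .R e, u => X 1 (oph X M a e u)
  | .F e, u => X 4 (oph X M a e u)
  | .mul c e, u => rf O (fun r => c (M, a, r)) * oph X M a e u
  | .add e e', u => oph X M a e u + oph X M a e' u

/-- The outgoing derivative and the chain of spin -2. -/
def oD (e : Op) : Op := .add (.R e) (.mul (fun p => sinv (De p.1 p.2.1 p.2.2))
  (.add (.mul (fun p => 2 * (p.2.2 ^ 2 + p.2.1 ^ 2)) (.T e)) (.mul (fun p => 2 * p.2.1) (.F e))))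
def oU (e : Op) : Op := .mul (fun p => p.2.2 ^ 2) (oD e)
def o3 : Op := oD (oU (oU (.mul (fun p => De p.1 p.2.1 p.2.2 ^ 2 * sinv p.2.2 ^ 3) .one)))

/-- The parameters: the fixed constants, the exponent of the weight in time, the radii of the
cut offs, the orders of the estimate of top order and the order of the terms of the gauge. -/
structure Pr where
  c : Cs
  Q : ℝ
  rI : ℝ
  rb : ℝ
  n : Bool → ℕ
  g : ℕ

/-- The inner cut off and the lowest order. -/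
def Pr.ch (P : Pr) : ℝ → ℝ := up (P.c.r0 + P.c.d) P.rI
def Pr.n0 (P : Pr) : ℕ := max (P.n true) (P.n false) + 13

structure Pr.Ok (P : Pr) : Prop where
  s1 : 1 < P.c.s0
  s3 : 2 * P.c.s0 ≤ 3
  Q0 : 0 ≤ P.Q
  Q3 : P.Q ≤ 3
  rI : P.c.r0 + P.c.d < P.rI ∧ P.rI < rp P.c.M P.c.a
  rb : P.rI + 1 ≤ P.rb
  n4 : ∀ b, 4 ≤ P.n b
  N0 : P.n0 + 30 ≤ P.c.N0

/-- The constants with the variable part. -/
def Pr.cs (P : Pr) (R2 Rs B cw : ℝ) (K : ℕ) : Cs :=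
  { P.c with R2 := R2, Rs := Rs, B := B, cw := cw, K := K }

/-- The states; s is the level, T its time, K the last slab, eps the size of the bootstrap
assumption of order L, ep the size of the far tables, Qf j the tail after the slab j. -/
structure St (P : Pr) where
  R2 : ℝ
  Rs : ℝ
  B : ℝ
  cw : ℝ
  Kc : ℕ
  E : Est
  s : ℝ
  T : ℝ
  K : ℕ
  L : ℕ
  eps : ℝ
  ep : ℝ
  D : ℝ
  nt : ℕ → ℝ
  Qf : ℕ → ℝ
  R : Raw (Sm (on E.O1))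
  ok : (P.cs R2 Rs B cw Kc).Ok
  is : E.Is (P.cs R2 Rs B cw Kc)
  sL : s ∈ E.Lv
  top : E.Top (P.cs R2 Rs B cw Kc) s T
  kT : P.c.t1 + K ≤ T + 1
  e0 : 0 < eps
  e1 : E.e0 ≤ eps
  dec : E.Dec L P.c.s0 eps
  nt0 : ∀ i, 0 ≤ nt i
  sup : ∀ i : ℕ, Sup E (E.eta P.c.L0) (P.c.R1 + 4) (P.c.t1 + i) (nt i)
  tl : Tl nt Qf
  dQ : ∀ k, sm P.Q k (fun j => Qf j ^ 2) ≤ D
  dB : (B * E.e0) ^ 2 ≤ D
  d3 : eps ^ 3 ≤ D
  RK : R.K = kt E.O1 fun r => js P.c.M (E.M, E.a, r)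
  Rp : R.p = { pI E.O1 P.c.M E.M E.a with j1 := 0 }
  RG : R.T.G = E.G1

variable {P : Pr}

namespace St
variable (σ : St P)

/-- The constants, the five letters, the families. -/
def c : Cs := P.cs σ.R2 σ.Rs σ.B σ.cw σ.Kc
def X : Fin 5 → Der (Sm (on σ.E.O1)) := σ.R.brg.X
def f (b : Bool) (J : List (Fin 5)) : Sm (on σ.E.O1) := σ.R.brg.fm b J

/-- The level m of the two families. -/
def lv (m : ℕ) (x : E6) : ℝ := ∑ b, ∑ J ∈ P354XT.words m, ‖fv (σ.f b J) x‖ ^ 2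

/-- The integral over the slab j. -/
def sj (j : ℕ) (c : ℝ → ℝ) (F : E6 → ℝ) : ℝ := if j ≤ σ.K then sl (P.c.t1 + j) c F else 0

/-- The outer cut off. -/
def out (R : ℝ) : ℝ → ℝ := dn (min R (σ.R2 - 2)) (min R (σ.R2 - 2) + 1)

/-- The density of the flux at the radius R1, and the far densities of low order. -/
def gd (b : Bool) (n : ℕ) (R1 : ℝ) (u : Sm (on σ.E.O1)) (x : E6) : ℝ :=
  cond b (R1 ^ (1 / 10 - 3 : ℝ) * q2 σ.X x n (σ.X 1 u) + R1 ^ (1 / 10 - 7 : ℝ) * q2 σ.X x (n + 1) u)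
    (R1 ^ (-3 : ℝ) * q2 ![σ.X 0, σ.X 4] x (n - 2) (oph σ.X σ.E.M σ.E.a Op.l3 u))
def la (b : Bool) (u : Sm (on σ.E.O1)) (x : E6) : ℝ :=
  cond b (x.2.1 ^ (1 / 10 - 5 : ℝ) * ‖fv (oph σ.X σ.E.M σ.E.a (oD .one) u) x‖ ^ 2 +
      x.2.1 ^ (1 / 10 - 7 : ℝ) * ‖fv u x‖ ^ 2)
    (x.2.1 ^ (1 / 10 - 1 : ℝ) * ‖fv (oph σ.X σ.E.M σ.E.a o3 u) x‖ ^ 2)

end St

/-- The functionals. -/
def fy (P : Pr) (n : ℕ) (R : ℝ) (σ : St P) (j : ℕ) : ℝ :=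
  σ.sj j (fun r => P.ch r * σ.out R r) (σ.E.eta n)
def fx (P : Pr) (n : ℕ) (R : ℝ) (σ : St P) (j : ℕ) : ℝ :=
  σ.sj j (fun r => up (P.rb - 1) P.rb r * σ.out R r) (σ.E.eta n)
def fG (P : Pr) (n : ℕ) (R : ℝ) (σ : St P) (j : ℕ) : ℝ :=
  ∑ b, σ.sj j (fun r => up (|R| / 2) |R| r * dn (2 * |R|) (3 * |R|) r)
    (σ.gd b (P.n b) |R| (σ.f b (List.replicate (n - 1 - P.n b) 0)))
def fB (P : Pr) (J : ℕ) (R : ℝ) (σ : St P) (j : ℕ) : ℝ :=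
  ∑ b, ∑ i ∈ Finset.range (P.n0 + 1),
    σ.sj j (fun r => up (P.c.R1 + J - 1) (P.c.R1 + J) r * dn (2 * R) (2 * R + 1) r)
      (σ.la b ((σ.X 0)^[i] (σ.f b [])))
def fh (P : Pr) (σ : St P) (j : ℕ) : ℝ := σ.eps * wt (-P.c.s0) j

/-- Enough regularity for the order n, outer radius at least R, size at most e. -/
structure Gd (n : ℕ) (R : ℝ) (e : Cs → ℝ) (σ : St P) : Prop where
  L : n / 2 + P.c.L0 + 20 ≤ σ.L
  K : n + P.c.N0 + 20 ≤ σ.Kc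
  R : R ≤ σ.R2
  e1 : σ.eps ≤ e σ.c
  e2 : σ.ep ≤ e σ.c
  g : P.g + P.c.L0 + 20 ≤ σ.L ∧ P.g + P.c.N0 + P.c.L0 + 20 ≤ σ.Kc

/-- The filter. -/
def F0 (P : Pr) (n : ℕ) : Filter (St P) where
  sets := {S | ∃ R e, (∀ c, 0 < e c) ∧ ∀ σ, Gd n R e σ → σ ∈ S}
  univ_sets := ⟨0, fun _ => 1, fun _ => one_pos, fun _ _ => trivial⟩
  sets_of_superset := fun ⟨R, e, h, k⟩ s => ⟨R, e, h, fun σ g => s (k σ g)⟩
  inter_sets := fun ⟨R, e, h, k⟩ ⟨R', e', h', k'⟩ =>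
    ⟨max R R', fun c => min (e c) (e' c), fun c => lt_min (h c) (h' c), fun σ g =>
      ⟨k σ ⟨g.L, g.K, (le_max_left _ _).trans g.R, g.e1.trans (min_le_left _ _),
        g.e2.trans (min_le_left _ _), g.g⟩, k' σ ⟨g.L, g.K, (le_max_right _ _).trans g.R,
        g.e1.trans (min_le_right _ _), g.e2.trans (min_le_right _ _), g.g⟩⟩⟩

/-- The system; G n contains the far tables, Γ is the far density of the layer. -/
def sys (P : Pr) (G : ℕ → Filter (St P)) (Γ : ℕ → ℝ → St P → ℕ → ℝ) : Sys (St P) where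
  F n := F0 P n ⊓ G n
  Q := P.Q
  s := P.c.s0
  rb := P.rb
  n0 := P.n0
  g := P.g
  K := St.K
  D := St.D
  h := fh P
  y := fy P
  x := fx P
  i := fy P (P.n0 - 1)
  Gd := Γ
  Bk := fB P

theorem ev_iff {n : ℕ} {p : St P → Prop} :
    (∀ᶠ σ in F0 P n, p σ) ↔ ∃ R e, (∀ c, 0 < e c) ∧ ∀ σ, Gd n R e σ → p σ := Iff.rfl

theorem ev_of {n : ℕ} {p : St P → Prop} (R : ℝ) {e : Cs → ℝ} (h : ∀ c, 0 < e c)
    (k : ∀ σ, Gd n R e σ → p σ) : ∀ᶠ σ in F0 P n, p σ := ⟨R, e, h, k⟩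

theorem ev_R (n : ℕ) (R : ℝ) : ∀ᶠ σ in F0 P n, R ≤ σ.R2 :=
  ev_of R (fun _ => one_pos) fun _ g => g.R

theorem ev_c (n : ℕ) {e : Cs → ℝ} (h : ∀ c, 0 < e c) :
    ∀ᶠ σ in F0 P n, σ.eps ≤ e σ.c ∧ σ.ep ≤ e σ.c := ev_of 0 h fun _ g => ⟨g.e1, g.e2⟩

theorem ev_e (n : ℕ) {δ : ℝ} (h : 0 < δ) : ∀ᶠ σ in F0 P n, σ.eps ≤ δ ∧ σ.ep ≤ δ :=
  ev_c n fun _ => h

theorem ev_LK (n : ℕ) :
    ∀ᶠ σ in F0 P n, n / 2 + P.c.L0 + 20 ≤ σ.L ∧ n + P.c.N0 + 20 ≤ σ.Kc :=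
  ev_of 0 (fun _ => one_pos) fun _ g => ⟨g.L, g.K⟩

theorem F0_anti : Antitone (F0 P) := fun _ _ h _ ⟨R, e, he, k⟩ =>
  ⟨R, e, he, fun σ g => k σ ⟨(by have := Nat.div_le_div_right (c := 2) h; have := g.L; omega),
    (by have := g.K; omega), g.R, g.e1, g.e2, g.g⟩⟩

theorem ev_g (n : ℕ) :
    ∀ᶠ σ in F0 P n, P.g + P.c.L0 + 20 ≤ σ.L ∧ P.g + P.c.N0 + P.c.L0 + 20 ≤ σ.Kc :=
  ev_of 0 (fun _ => one_pos) fun _ g => g.g

theorem F0_g (n : ℕ) : F0 P n ≤ F0 P P.g := fun _ ⟨R, e, he, k⟩ =>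
  ⟨R, e, he, fun σ g => k σ ⟨(by have := g.g.1; omega), (by have := g.g.2; omega), g.R, g.e1,
    g.e2, g.g⟩⟩

theorem ev_sys {G : ℕ → Filter (St P)} {Γ : ℕ → ℝ → St P → ℕ → ℝ} {n : ℕ} {p : St P → Prop}
    (h : ∀ᶠ σ in F0 P n, p σ) : ∀ᶠ σ in (sys P G Γ).F n, p σ := h.filter_mono inf_le_left

/-- The flux at the radius R1 is bounded by the far density and terms of lower order. -/
def GDX (P : Pr) (G : ℕ → Filter (St P)) (Γ : ℕ → ℝ → St P → ℕ → ℝ) : Prop :=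
  ∀ n, P.n0 ≤ n → ∃ C0 R0, 0 ≤ C0 ∧ ∀ R1, R0 ≤ R1 → ∃ R'' C, 0 ≤ C ∧
    ∀ᶠ σ in (sys P G Γ).F n, ∀ j ≤ σ.K, fG P n R1 σ j ≤ C0 * Γ n R1 σ j +
      C * ((sys P G Γ).lo n R'' σ j + (sys P G Γ).hy n R'' σ j)

/-- The pointwise dictionary: the inequalities for the family at all points of r ≤ ρ. -/
def DICT (P : Pr) : Prop := ∀ (t w : ℕ) (ρ : ℝ), ∃ C, 0 < C ∧ ∀ᶠ σ in F0 P t,
  |σ.E.M - P.c.M| + |σ.E.a - P.c.a| ≤ C * σ.eps ∧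
  ∀ (x : σ.E.O1) (j : ℕ), An x → x.1.2.1 ≤ ρ → |x.1.1 - P.c.t1 - j| ≤ w →
    σ.R.brg.Out t (P.c.N0 - 10) C (C * fh P σ j) ⟨evO x, fun z => fv_alg z x.2⟩ ∧
    ∀ m ≤ t, σ.E.eta m x ≤ C * σ.lv m x ∧ σ.lv m x ≤ C * σ.E.eta m x

end Vale.Agent.P354SI
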