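import Vale.Agent.P354SI.Fl
import Vale.Agent.P354XT.Top

/-!
The estimate of top order for one spin in terms of the functionals.
-/

open scoped ContDiff
open Filter Finset

noncomputable section

namespace Vale.Agent.P354SI

open Vale.Agent.P354XG Vale.Agent.P354XI Vale.Agent.P354Z Vale.Agent.P354XT Vale.Agent.P354BO
open Vale.Agent.P354BF (rp)

variable {P : Pr}

/-- The estimate of top order with given radii and order. -/
def Tp (M0 a0 rm rI rb : ℝ) (n : ℕ) (σ : Bool) : Prop :=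
  ∃ rI' p1 p2 p3 p4 Rs : ℝ, rI ≤ rI' ∧ p3 < p4 ∧ p4 + 1 ≤ rb ∧
    ∀ (k : ℕ) (Cf R0 : ℝ), Rs ≤ R0 → ∃ C0 : ℝ, ∀ R1 : ℝ, 20 * R0 ≤ R1 → ∀ ε : ℝ, 0 < ε →
    ∃ C1 dl eps : ℝ, 0 < dl ∧ 0 < eps ∧ ∀ M a : ℝ, |M - M0| < dl → |a - a0| < dl →
      ∀ (A : Type) [CommRing A] [Algebra ℂ A] (Φ : Fld A) (D : Dat A), Φ.Is → Φ.Par →
      Φ.s = sp σ → (Φ.f = fun r => hs M0 (M, a, r)) → Fam Φ D M a n k Cf rm rI' (5 * R0) R1 eps →
      ∀ κ ≤ D.K,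
        D.En Φ (n + k) R0 κ + ∑ j ∈ range (κ + 1), D.bk Φ (n + k) p1 p2 p3 p4 R0 j ≤
          C0 * ∑ j ∈ range (κ + 1), D.GdT Φ σ n k M a (1 / 10) R1 j +
          ε * (∑ j ∈ Icc (κ - 3) κ, D.Ef Φ (n + k) R1 j +
            ∑ j ∈ range (κ + 1), D.Bf Φ (n + k) R0 R1 j) + C1 * D.rest Φ (n + k) R1 κ

def Pr.Tp (P : Pr) : Prop := ∀ b, P354SI.Tp P.c.M P.c.a (P.c.r0 + P.c.d) P.rI P.rb (P.n b) b

theorem ex_tp (h : ∀ b, TOPT b) {M0 a0 rm : ℝ} (h0 : a0 ≠ 0) (ha : |a0| < M0) (h1 : M0 < rm)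
    (h2 : rm < rp M0 a0) : ∃ (rI rb : ℝ) (n : Bool → ℕ), (rm < rI ∧ rI < rp M0 a0) ∧ rI + 1 ≤ rb ∧
      (∀ b, 4 ≤ n b) ∧ ∀ b, Tp M0 a0 rm rI rb (n b) b := by
  choose n rI p1 p2 p3 p4 Rs a1 a2 a3 a4 a5 a6 a7 _ k using fun b =>
    h b M0 a0 rm h0 ha _ (hs_slope ha h1 h2) (1 / 10) (by norm_num) (by norm_num)
  refine ⟨min (rI true) (rI false), max (p4 true) (p4 false) + 1, n, ⟨lt_min (a2 _) (a2 _),
    (min_le_left _ _).trans_lt (a3 _)⟩, ?_, a1, fun b => ⟨rI b, p1 b, p2 b, p3 b, p4 b, Rs b, ?_,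
      a7 b, ?_, k b⟩⟩
  · linarith [min_le_left (rI true) (rI false), le_max_left (p4 true) (p4 false), a3 true, a4 true,
      a5 true, a6 true, a7 true]
  · cases b
    exacts [min_le_right _ _, min_le_left _ _]
  · cases b
    exacts [add_le_add_left (le_max_right _ _) 1, add_le_add_left (le_max_left _ _) 1]

theorem sum_sh (g : ℕ → ℝ) {k1 k2 : ℕ} (h : k1 ≤ k2) :
    ∑ j ∈ range (k2 - k1 + 1), g (k1 + j) = ∑ j ∈ Icc k1 k2, g j := by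
  rw [← Ico_add_one_right_eq_Icc, sum_Ico_eq_sum_range, show k2 + 1 - k1 = k2 - k1 + 1 by omega]

theorem sum_last {g : ℕ → ℝ} (h0 : ∀ j, 0 ≤ g j) {k1 k2 : ℕ} (h : k1 ≤ k2) :
    ∑ j ∈ Icc (k2 - k1 - 3) (k2 - k1), g (k1 + j) ≤ ∑ j ∈ Icc (k2 - 3) k2, g j := by
  rw [← sum_image (g := (k1 + ·)) fun _ _ _ _ e => Nat.add_left_cancel e]
  refine sum_le_sum_of_subset_of_nonneg (fun j hj => ?_) fun j _ _ => h0 j
  obtain ⟨i, hi, rfl⟩ := mem_image.1 hj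
  rw [mem_Icc] at hi ⊢
  omega

namespace St
variable {σ : St P} {b : Bool}

theorem wd_q2 {ι : Type} [Fintype ι] {Y : ι → Der (Sm (on σ.E.O1))} (x : E6) (u) :
    ∀ (J : List (Fin 5)) (n : ℕ), (∀ a ∈ J, ∃ i, σ.X a = Y i) →
      q2 Y x n ((σ.Ph b).wd J u) ≤ q2 Y x (n + J.length) u
  | [], _, _ => le_rfl
  | a :: J, n, h => by
    obtain ⟨i, hi⟩ := h a List.mem_cons_self
    rw [Fld.wd_cons, σ.Ph_X, hi, List.length_cons, add_comm J.length, ← add_assoc]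
    exact (q2_der Y x n i _).trans (wd_q2 x u J _ fun a ha => h a (List.mem_cons_of_mem _ ha))

theorem sum_q2 {ι : Type} [Fintype ι] {Y : ι → Der (Sm (on σ.E.O1))} (x : E6) (u) {m N : ℕ}
    (hm : m ≤ N) {s : Finset (List (Fin 5))} (hs : s ⊆ words m)
    (h : ∀ J ∈ s, ∀ a ∈ J, ∃ i, σ.X a = Y i) :
    rv (∑ J ∈ s, (σ.Ph b).sq ((σ.Ph b).wd J u)) x ≤ (words N).card * q2 Y x m u := by
  rw [rv_sum]
  refine (sum_le_card_nsmul _ _ (q2 Y x m u) fun J hJ => ?_).trans ?_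
  · rw [rv_sq]
    exact (wd_q2 x u J 0 (h J hJ)).trans (q2_mono _ _ (by simpa using mem_words.1 (hs hJ)) _)
  · rw [nsmul_eq_mul]
    exact mul_le_mul_of_nonneg_right (Nat.cast_le.2 (card_le_card (hs.trans (words_mono hm))))
      (q2_nonneg _ _ _ _)

theorem gd_le (n : ℕ) {R1 : ℝ} (h : 0 ≤ R1) (u) (x : E6) :
    rv ((σ.Ph b).gd b n σ.E.M σ.E.a (1 / 10) R1 u) x ≤ (words (n + 1)).card * σ.gd b n R1 u x := by
  classical
  cases b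
  · rw [Fld.gd, gd, cond_false, cond_false, rv_rl, mul_left_comm, σ.oph_eq false]
    refine mul_le_mul_of_nonneg_left (sum_q2 x _ (by omega) (filter_subset _ _) fun J hJ a ha => ?_)
      (by positivity)
    rcases (mem_filter.1 hJ).2 a ha with rfl | rfl
    exacts [⟨0, rfl⟩, ⟨1, rfl⟩]
  · rw [Fld.gd, gd, cond_true, cond_true, rv_add, rv_rl, rv_rl, mul_add, mul_left_comm _ (_ ^ _),
      mul_left_comm _ (_ ^ _), ← σ.Ph_X true, Fld.X1, σ.Ph_X true]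
    exact add_le_add (mul_le_mul_of_nonneg_left (sum_q2 x _ n.le_succ subset_rfl fun _ _ a _ =>
      ⟨a, rfl⟩) (by positivity)) (mul_le_mul_of_nonneg_left (sum_q2 x _ le_rfl subset_rfl
        fun _ _ a _ => ⟨a, rfl⟩) (by positivity))

theorem gd_nn (n : ℕ) {R1 : ℝ} (h : 0 ≤ R1) (u) (x : E6) : 0 ≤ σ.gd b n R1 u x := by
  cases b <;> simp only [gd, cond]
  · exact mul_nonneg (by positivity) (q2_nonneg _ _ _ _)
  · exact add_nonneg (mul_nonneg (by positivity) (q2_nonneg _ _ _ _))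
      (mul_nonneg (by positivity) (q2_nonneg _ _ _ _))

theorem gd_nn' (n : ℕ) {R1 : ℝ} (h : 0 ≤ R1) (u) (x : E6) :
    0 ≤ rv ((σ.Ph b).gd b n σ.E.M σ.E.a (1 / 10) R1 u) x := by
  cases b <;> simp only [Fld.gd, cond, rv_add, rv_rl, rv_sum, rv_sq, Fld.jq, rv_lv] <;> positivity

theorem rho_nn (t : ℕ) (C : ℝ) (k1 k2 : ℕ) (x : E6) : 0 ≤ rv (σ.dat b t C k1 k2).rho x := by
  by_cases hx : x ∈ σ.E.O1
  · have e1 : fv ((σ.Ph b).tm fun s => (C * σ.eps * om P s) ^ 2) x =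
        ((C * σ.eps * om P x.1) ^ 2 : ℝ) :=
      P354EF.fv_fO (φ := fun p => (C * σ.eps * om P p.1) ^ 2)
        (((contDiff_const.mul om_sm).pow 2).comp contDiff_fst) hx
    rw [St.dat, rv, fv_mul, e1, Complex.re_ofReal_mul]
    exact mul_nonneg (sq_nonneg _) ((σ.lv_nn t x).trans_eq (St.rv_lv2 b t x).symm)
  · simp [rv, fv_out _ hx]

theorem cn_gd (n : ℕ) (R1 : ℝ) (u) : σ.Cn (σ.gd b n R1 u) := by
  cases b
  · exact continuousOn_const.mul (σ.cn_q2 _ _ _)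
  · exact (continuousOn_const.mul (σ.cn_q2 _ _ _)).add (continuousOn_const.mul (σ.cn_q2 _ _ _))

/-- The densities of the family are bounded by eta. -/
theorem up_bd {c c' : ℝ → ℝ} {F : E6 → ℝ} {m j : ℕ} {k C ρ : ℝ} (hj : j ≤ σ.K) (hc : σ.Wc c)
    (hc' : σ.Wc c') (hF : σ.Cn F) (k0 : 0 ≤ k) (C0 : 0 ≤ C)
    (w : ∀ r, 0 ≤ c r ∧ 0 ≤ c' r ∧ (r ≤ ρ → c r ≤ c' r) ∧ (ρ ≤ r → c r = 0))
    (h : ∀ x ∈ σ.E.O1, P.c.t1 + j ≤ x.1 → F x ≤ k * σ.lv m x)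
    (d : ∀ x ∈ σ.E.O1, An x → x.2.1 ≤ ρ → |x.1 - P.c.t1 - j| ≤ 2 → σ.lv m x ≤ C * σ.E.eta m x) :
    sl (P.c.t1 + j) c F ≤ k * C * σ.sj j c' (σ.E.eta m) := by
  rw [sj_eq hj]
  refine sl_le (σ.sa (by omega)) hc hc' hF (σ.cn_eta m) fun x a1 a2 a3 a4 => ?_
  obtain ⟨w1, w2, w3, w4⟩ := w x.2.1
  have e := σ.eta_nn m x
  rcases le_total x.2.1 ρ with r | r
  · have := (h x a1 a3).trans (mul_le_mul_of_nonneg_left
      (d x a1 a2 r (abs_le.2 ⟨by linarith, by linarith⟩)) k0)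
    refine (mul_le_mul_of_nonneg_left this w1).trans ((mul_le_mul_of_nonneg_right (w3 r)
      (by positivity)).trans_eq (by ring))
  · rw [w4 r, zero_mul]
    positivity

end St

/-- The weights and densities on the left hand side. -/
def wn (P : Pr) (R0 r : ℝ) : ℝ := P.ch r * dn (2 * R0) (2 * R0 + 1) r
def wx (P : Pr) (R0 r : ℝ) : ℝ := up (P.rb - 1) P.rb r * dn (2 * R0) (2 * R0 + 1) r
def St.lb (σ : St P) (b : Bool) (m : ℕ) : E6 → ℝ := rv ((σ.Ph b).lv m (σ.f b))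

theorem St.lb_nn (σ : St P) (b m x) : 0 ≤ σ.lb b m x := by
  rw [St.lb, St.rv_lv]; positivity

/-- The hypotheses on the slabs and the radii; m + 1 is the top level. -/
structure Cx (σ : St P) (m k1 k2 : ℕ) (R0 R1 C : ℝ) : Prop where
  ok : P.Ok
  hk : k1 + 2 ≤ k2
  hK : k2 ≤ σ.K
  rb : 2 * P.rb ≤ R0
  r0 : 1 ≤ R0
  r1 : 20 * R0 ≤ R1
  r2 : 4 * R1 + 2 ≤ σ.R2
  c0 : 0 < C
  du : ∀ {i} (j : ℕ), i ≤ m + 1 → ∀ x ∈ σ.E.O1, An x → x.2.1 ≤ 4 * R1 →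
    |x.1 - P.c.t1 - j| ≤ 2 → σ.lv i x ≤ C * σ.E.eta i x

namespace Cx
variable {σ : St P} {m k1 k2 j : ℕ} {R0 R1 C : ℝ} (h : Cx σ m k1 k2 R0 R1 C) (b : Bool) (Cd : ℝ)
  (hj : j < k2 - k1 + 1)
include h

theorem r3 : P.c.r0 < P.rb - 1 := by linarith [h.ok.rI.1, h.ok.rb, σ.d_pos]
theorem w1 : σ.Wc (wn P R0) := St.wc_of (lt_add_of_pos_right _ σ.d_pos) h.ok.rI.1 (lt_add_one _)
  (by linarith [h.r0, h.r1, h.r2])
theorem w2 : σ.Wc (wx P R0) :=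
  St.wc_of h.r3 (sub_one_lt _) (lt_add_one _) (by linarith [h.r0, h.r1, h.r2])
theorem w3 : σ.Wc fun r => P.ch r * dn (3 * R1) (4 * R1) r :=
  St.wc_of (lt_add_of_pos_right _ σ.d_pos) h.ok.rI.1 (by linarith [h.r0, h.r1])
    (by linarith [h.r2])
theorem w5 : σ.Wc fun r => up (R1 / 2) R1 r * dn (2 * R1) (3 * R1) r :=
  St.wc_of (by linarith [h.r0, h.r1, h.r3, h.rb]) (by linarith [h.r0, h.r1])
    (by linarith [h.r0, h.r1]) (by linarith [h.r0, h.r1, h.r2])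

theorem wf (r : ℝ) : 0 ≤ P.ch r * dn (3 * R1) (4 * R1) r ∧ 0 ≤ P.ch r * σ.out (4 * R1) r ∧
    (r ≤ 4 * R1 → P.ch r * dn (3 * R1) (4 * R1) r ≤ P.ch r * σ.out (4 * R1) r) ∧
    (4 * R1 ≤ r → P.ch r * dn (3 * R1) (4 * R1) r = 0) :=
  ⟨mul_nonneg (up_nonneg _ _ _) (dn_nonneg _ _ _), mul_nonneg (up_nonneg _ _ _) (St.out_nn _ _),
    fun e => mul_le_mul_of_nonneg_left ((dn_le _ _ _).trans_eq
      (St.out_one e (by linarith [h.r2])).symm) (up_nonneg _ _ _),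
    fun e => mul_eq_zero_of_right _ (dn_zero (by linarith [h.r0, h.r1]) e)⟩

include hj

theorem le : k1 + j ≤ σ.K := by have := h.hk; have := h.hK; omega

theorem s {c : ℝ → ℝ} (hc : σ.Wc c) (hs : ContDiff ℝ ∞ c) (G) :
    (σ.dat b (m + 1) Cd k1 k2).sl (σ.Ph b) j c G = sl (P.c.t1 + (k1 + j : ℕ)) c (rv G) :=
  St.J_sl b (σ.sa ((h.le hj).trans (Nat.le_add_right _ _))) hc hs (fun t => by
    rw [Nat.cast_add, ← add_assoc, sub_sub]; rfl) G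

theorem s3 (G) : (σ.dat b (m + 1) Cd k1 k2).sl (σ.Ph b) j ((σ.dat b (m + 1) Cd k1 k2).wf R1) G =
    sl (P.c.t1 + (k1 + j : ℕ)) (fun r => P.ch r * dn (3 * R1) (4 * R1) r) (rv G) :=
  h.s b Cd hj h.w3 ((up_sm _ _).mul (dn_sm _ _)) G

theorem lf {i : ℕ} (hi : i ≤ m + 1) : (σ.dat b (m + 1) Cd k1 k2).sl (σ.Ph b) j
    ((σ.dat b (m + 1) Cd k1 k2).wf R1) ((σ.Ph b).lv i (σ.f b)) ≤ C * fy P i (4 * R1) σ (k1 + j) :=
  (h.s3 b Cd hj _).trans_le ((St.up_bd (h.le hj) h.w3 (St.wc_y h.ok σ _) (σ.cn_rv _) zero_le_one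
    h.c0.le h.wf (fun x _ _ => (St.lv_le b _ x).trans_eq (one_mul _).symm) (h.du _ hi)).trans_eq
      (by rw [one_mul]; rfl))

theorem nl (i : ℕ) : 0 ≤ (σ.dat b (m + 1) Cd k1 k2).sl (σ.Ph b) j
    ((σ.dat b (m + 1) Cd k1 k2).wf R1) ((σ.Ph b).lv i (σ.f b)) :=
  (sl_nn fun x => mul_nonneg (h.wf _).1 (σ.lb_nn b i x)).trans_eq (h.s3 b Cd hj _).symm

theorem g1 : (σ.dat b (m + 1) Cd k1 k2).Bf (σ.Ph b) m R0 R1 j ≤
    C * fx P (m + 1) (4 * R1) σ (k1 + j) := by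
  have w4 : σ.Wc fun r => up (R0 / 2) R0 r * dn (3 * R1) (4 * R1) r :=
    St.wc_of (by linarith [h.r3, h.rb]) (by linarith [h.r0]) (by linarith [h.r0, h.r1])
      (by linarith [h.r2])
  refine (h.s b Cd hj w4 ((up_sm _ _).mul (dn_sm _ _)) _).trans_le ((St.up_bd (h.le hj) w4
    (St.wc_x h.ok σ _) (σ.cn_rv _) zero_le_one h.c0.le
    (fun r => ⟨mul_nonneg (up_nonneg _ _ _) (dn_nonneg _ _ _),
      mul_nonneg (up_nonneg _ _ _) (St.out_nn _ _), fun e => ?_,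
      fun e => mul_eq_zero_of_right _ (dn_zero (by linarith [h.r0, h.r1]) e)⟩)
    (fun x _ _ => (St.lv_le b _ x).trans_eq (one_mul _).symm) (h.du _ le_rfl)).trans_eq
      (by rw [one_mul]; rfl))
  rw [St.out_one e (by linarith [h.r2]), mul_one]
  refine (mul_le_of_le_one_right (up_nonneg _ _ _) (dn_le _ _ _)).trans ?_
  rcases le_total r (R0 / 2) with e | e
  · rw [up_zero (by linarith [h.r0]) e]; exact up_nonneg _ _ _
  · rw [up_one (sub_one_lt _) (by linarith [h.rb])]; exact up_le _ _ _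

theorem g2 (cd : 0 < Cd) : (σ.dat b (m + 1) Cd k1 k2).lo (σ.Ph b) m R1 j +
    (σ.dat b (m + 1) Cd k1 k2).er (σ.Ph b) R1 j / (σ.dat b (m + 1) Cd k1 k2).h j +
    (σ.dat b (m + 1) Cd k1 k2).h j * (σ.dat b (m + 1) Cd k1 k2).Ef (σ.Ph b) m R1 j ≤
    C * (1 + 4 * Cd) * (fy P (m - 1) (4 * R1) σ (k1 + j) +
      fh P σ (k1 + j) * fy P (m + 1) (4 * R1) σ (k1 + j)) := by
  have h0 : 0 < (σ.dat b (m + 1) Cd k1 k2).h j := mul_pos (by positivity) (fh_pos _ _)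
  have e1 := h.lf b Cd hj (show m - 1 ≤ _ by omega)
  have e2 := mul_le_mul_of_nonneg_left (h.lf b Cd hj le_rfl) h0.le
  have e3 := (h.s3 b Cd hj _).trans_le (St.up_bd (h.le hj) h.w3 (St.wc_y h.ok σ _) (σ.cn_rv _)
    (sq_nonneg _) h.c0.le h.wf (fun x a1 a2 => σ.rho_le h.ok b _ cd.le k1 k2 j a1 a2)
      (h.du _ le_rfl))
  have e4 : (σ.dat b (m + 1) Cd k1 k2).er (σ.Ph b) R1 j / (σ.dat b (m + 1) Cd k1 k2).h j ≤
      (σ.dat b (m + 1) Cd k1 k2).h j * (C * fy P (m + 1) (4 * R1) σ (k1 + j)) := by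
    rw [div_le_iff₀ h0]
    exact e3.trans_eq (by rw [fy]; ring)
  have n1 := mul_nonneg (mul_pos h.c0 cd).le (fy_nn (m - 1) (4 * R1) σ (k1 + j))
  have n2 := mul_nonneg h.c0.le (mul_nonneg (fh_pos σ (k1 + j)).le
    (fy_nn (m + 1) (4 * R1) σ (k1 + j)))
  refine (add_le_add (add_le_add e1 e4) e2).trans ?_
  rw [show (σ.dat b (m + 1) Cd k1 k2).h j = 2 * Cd * fh P σ (k1 + j) from rfl]
  nlinarith

theorem g3 {k : ℕ} (e : m - P.n b = k) : 0 ≤ (σ.dat b (m + 1) Cd k1 k2).GdT (σ.Ph b) b (P.n b) k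
    σ.E.M σ.E.a (1 / 10) R1 j ∧ (σ.dat b (m + 1) Cd k1 k2).GdT (σ.Ph b) b (P.n b) k σ.E.M σ.E.a
      (1 / 10) R1 j ≤ (words (P.n b + 1)).card * fG P (m + 1) R1 σ (k1 + j) := by
  have p : 0 ≤ R1 := by linarith [h.r0, h.r1]
  have w := fun r => mul_nonneg (up_nonneg (R1 / 2) R1 r) (dn_nonneg (2 * R1) (3 * R1) r)
  rw [Dat.GdT, h.s b Cd hj h.w5 ((up_sm _ _).mul (dn_sm _ _))]
  refine ⟨sl_nn fun x => mul_nonneg (w _) (St.gd_nn' _ p _ x), (St.sl_le (σ.sa ((h.le hj).trans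
    (Nat.le_add_right _ _))) h.w5 h.w5 (σ.cn_rv _) (St.cn_gd (b := b) (P.n b) R1 _)
      fun x _ _ _ _ => (mul_le_mul_of_nonneg_left (St.gd_le _ p _ x) (w _)).trans_eq
        (mul_left_comm _ _ _)).trans (mul_le_mul_of_nonneg_left ?_ (Nat.cast_nonneg _))⟩
  rw [fG, abs_of_nonneg p, ← St.sj_eq (h.le hj), ← e]
  exact single_le_sum (f := fun b => σ.sj (k1 + j) _ (σ.gd b (P.n b) R1 (σ.f b
    (List.replicate (m + 1 - 1 - P.n b) 0)))) (fun b' _ => St.sj_nn fun x => mul_nonneg (w _)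
      (St.gd_nn _ p _ x)) (mem_univ b)

theorem g4 {p1 p2 p3 p4 : ℝ} (a2 : p3 < p4) (a3 : p4 + 1 ≤ P.rb) :
    sl (P.c.t1 + (k1 + j : ℕ)) (wx P R0) (σ.lb b (m + 1)) +
      sl (P.c.t1 + (k1 + j : ℕ)) (wn P R0) (σ.lb b m) ≤
      (σ.dat b (m + 1) Cd k1 k2).bk (σ.Ph b) m p1 p2 p3 p4 R0 j := by
  have s1 : ContDiff ℝ ∞ (wn P R0) := (up_sm _ _).mul (dn_sm _ _)
  have sp := (dn_sm p1 p2).add (up_sm p3 p4)
  refine add_le_add ((St.sl_le (k1 := 1) (σ.sa ((h.le hj).trans (Nat.le_add_right _ _))) h.w2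
    (h.w1.mul sp.continuous) (σ.cn_rv _) (σ.cn_rv _) fun x _ _ _ _ => ?_).trans_eq ((one_mul _).trans
      (h.s b Cd hj (h.w1.mul sp.continuous) (s1.mul sp) _).symm)) (h.s b Cd hj h.w1 s1 _).ge
  rw [one_mul]
  refine mul_le_mul_of_nonneg_right ?_ (σ.lb_nn b _ x)
  have n1 : 0 ≤ wn P R0 x.2.1 := mul_nonneg (up_nonneg _ _ _) (dn_nonneg _ _ _)
  rcases le_total x.2.1 p4 with e | e
  · rw [wx, up_zero (sub_one_lt _) (by linarith), zero_mul]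
    exact mul_nonneg n1 (add_nonneg (dn_nonneg _ _ _) (up_nonneg _ _ _))
  · rw [up_one a2 e]
    exact (mul_le_mul_of_nonneg_right (h.ok.up_le _) (dn_nonneg _ _ _)).trans
      (le_mul_of_one_le_right n1 (le_add_of_nonneg_left (dn_nonneg _ _ _)))

omit hj

theorem rest (cd : 0 < Cd) : 0 ≤ (σ.dat b (m + 1) Cd k1 k2).rest (σ.Ph b) m R1 (k2 - k1) ∧
    (σ.dat b (m + 1) Cd k1 k2).rest (σ.Ph b) m R1 (k2 - k1) ≤ C * (1 + 4 * Cd) *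
      (∑ j ∈ Icc k1 (k1 + 2), fy P (m + 1) (4 * R1) σ j + ∑ j ∈ Icc k1 k2,
        (fy P (m - 1) (4 * R1) σ j + fh P σ j * fy P (m + 1) (4 * R1) σ j)) := by
  have hk := h.hk
  have h0 : ∀ j, 0 < (σ.dat b (m + 1) Cd k1 k2).h j := fun j => mul_pos (by positivity) (fh_pos _ _)
  have a : ∀ j ∈ range 3, j < k2 - k1 + 1 := fun j hj => by have := mem_range.1 hj; omega
  refine ⟨add_nonneg (sum_nonneg fun j hj => h.nl b Cd (a j hj) _) (sum_nonneg fun j hj =>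
    add_nonneg (add_nonneg (h.nl b Cd (mem_range.1 hj) _) (div_nonneg ((sl_nn fun x => mul_nonneg
      (h.wf _).1 (St.rho_nn _ _ _ _ x)).trans_eq (h.s3 b Cd (mem_range.1 hj) _).symm) (h0 j).le))
      (mul_nonneg (h0 j).le (h.nl b Cd (mem_range.1 hj) _))), ?_⟩
  have z5 := sum_le_sum fun j (hj : j ∈ range _) => h.g2 b Cd (mem_range.1 hj) cd
  have z7 := sum_le_sum fun j hj => h.lf b Cd (a j hj) le_rfl
  rw [← mul_sum] at z5 z7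
  have z8 := sum_sh (fy P (m + 1) (4 * R1) σ) (Nat.le_add_right k1 2)
  rw [Nat.add_sub_cancel_left] at z8
  rw [z8] at z7
  rw [sum_sh (fun j => fy P (m - 1) (4 * R1) σ j + fh P σ j * fy P _ _ σ j) (by omega)] at z5
  have n5 := mul_nonneg (mul_pos h.c0 cd).le
    (sum_nonneg fun j (_ : j ∈ Icc k1 (k1 + 2)) => fy_nn (m + 1) (4 * R1) σ j)
  exact (add_le_add (z7.trans (le_add_of_nonneg_right (mul_nonneg zero_le_four n5))) z5).trans_eq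
    (by ring)

end Cx

end Vale.Agent.P354SI
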