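import Vale.Agent.P354CO.Defs

/-!
The rows of the hierarchy on the state of the estimates, and the output.
-/

open Filter

noncomputable section

namespace Vale.Agent.P354SI

open Vale.Agent.P354Z Vale.Agent.P354CO
open Vale.Agent.P354YH (sm Sys)

/-- The standing assumptions on the parameters and on the number m of letters of the tables. -/
structure Big (k : ℕ) (P : Pr) (m : ℕ) : Prop where
  ok : P.Ok
  c : P.c.Ok
  Q : P.Q = 5 / 2 ∨ P.Q = 14 / 5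
  hm : 2 * P.n0 + k ≤ m
  N : 2 * m + k ≤ P.c.N0
  g : 2 * (P.c.L0 + P.c.N0) + k ≤ P.g

theorem Big.mono {k k' m : ℕ} {P : Pr} (h : Big k P m) (e : k' ≤ k) : Big k' P m :=
  ⟨h.ok, h.c, h.Q, by have := h.hm; omega, by have := h.N; omega, by have := h.g; omega⟩

/-- X holds for all large orders. -/
def ROW (X : Pr → ℕ → Prop) : Prop := ∃ k, ∀ P m, Big k P m → X P m

theorem ROW.and {X Y : Pr → ℕ → Prop} (h : ROW X) (h' : ROW Y) : ROW fun P m => X P m ∧ Y P m := by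
  obtain ⟨k, h⟩ := h
  obtain ⟨k', h'⟩ := h'
  exact ⟨max k k', fun P m b =>
    ⟨h P m (b.mono (le_max_left _ _)), h' P m (b.mono (le_max_right _ _))⟩⟩

theorem ROW.mono {X Y : Pr → ℕ → Prop} (h : ROW X) (e : ∀ P m, Big 0 P m → X P m → Y P m) :
    ROW Y := h.imp fun _ h P m b => e P m (b.mono (Nat.zero_le _)) (h P m b)

/-- The type of the far densities. -/
abbrev Gam : Type := ∀ P : Pr, ℕ → ℕ → ℝ → St P → ℕ → ℝ

/-- The system with the far tables. -/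
abbrev sy (Γ : Gam) (P : Pr) (m : ℕ) : Sys (St P) := sys P (GT P m) (Γ P m)

/-- The rows. -/
structure Rows (Γ : Gam) : Prop where
  nn : ∀ P m n R σ j, 0 ≤ Γ P m n R σ j
  gdx : ROW fun P m => GDX P (GT P m) (Γ P m)
  fl : ROW fun P m => (sy Γ P m).FL
  fx : ROW fun P m => (sy Γ P m).FX
  fb : ROW fun P m => (sy Γ P m).FB
  low : ROW fun P m => (sy Γ P m).LOW
  init : ROW fun P m => (sy Γ P m).INIT
  unit : ROW fun P m => (sy Γ P m).UNIT

/-- The output of the hierarchy. -/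
def SOUT : Prop := ∀ (z : Z1) (a : C1) (Q : ℝ), Q = 5 / 2 ∨ Q = 14 / 5 → ∃ m0, ∀ m ≥ m0, ∃ N1,
  ∀ b : C2, N1 ≤ b.N0 → ∀ c d, (cs z a b c d).Ok → ∃ P : Pr, P.c = cs z a b c d ∧ P.Q = Q ∧
    P.Ok ∧ ∃ n2, ∀ n ≥ n2, ∀ R, ∃ C ≥ 0, ∀ᶠ σ in F0 P (n + 4) ⊓ GT P m (n + 4),
      sm Q σ.K (fy P n R σ) ≤ C * σ.D

end Vale.Agent.P354SI
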