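import Vale.Agent.P354SI.Near
import Vale.Agent.P354SI.Rows
import Vale.Agent.P354XR.Dict
import Vale.Agent.P354YH.Main

/-!
The output of the hierarchy from its rows.
-/

namespace Vale.Agent.P354SI

open Vale.Agent.P354Z Vale.Agent.P354CO
open Vale.Agent.P354XT (TOPT)

theorem Rows.is {Γ : Gam} (h : Rows Γ) : ROW fun P m => P.Tp → (sy Γ P m).Is :=
  (h.gdx.and (h.fl.and (h.fx.and (h.fb.and (h.low.and (h.init.and h.unit)))))).mono
    fun P m b ⟨g, a1, a2, a3, a4, a5, a6⟩ t =>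
      have f := form b.ok (GT_anti P m) (h.nn P m)
      ⟨f, small, a5, near b.ok (P354XR.dict b.ok) t f g, a1, a2, a3, a4, a6⟩

theorem sout (hT : ∀ b, TOPT b) {Γ : Gam} (h : Rows Γ) : SOUT := by
  obtain ⟨k, h⟩ := h.is
  intro z a Q hQ
  by_cases e : ∃ b c d, (cs z a b c d).Ok
  swap
  · exact ⟨0, fun _ _ => ⟨0, fun b _ c d o => (e ⟨b, c, d, o⟩).elim⟩⟩
  obtain ⟨b0, c0, d0, o0⟩ := e
  have d1 : 0 < a.d := o0.d
  have d2 : z.M < a.r0 := o0.r0
  have d3 : a.r0 + 3 * a.d < P354BF.rp z.M z.a := o0.rp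
  obtain ⟨rI, rb, n, i1, i2, i3, i4⟩ := ex_tp hT (M0 := z.M) (a0 := z.a) (rm := a.r0 + a.d)
    o0.a0 o0.aM (by linarith) (by linarith)
  refine ⟨2 * (max (n true) (n false) + 13) + k, fun m hm => ⟨2 * m + k + 30, fun b hb c d o => ?_⟩⟩
  let P : Pr := ⟨cs z a b c d, Q, rI, rb, n, 2 * (b.L0 + b.N0) + k⟩
  have s0 : P.c.s0 = 7 / 5 := rfl
  have ok : P.Ok := ⟨by rw [s0]; norm_num, by rw [s0]; norm_num,
    by rcases hQ with r | r <;> simp only [P, r] <;> norm_num,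
    by rcases hQ with r | r <;> simp only [P, r] <;> norm_num, i1, i2, i3,
    by change max (n true) (n false) + 13 + 30 ≤ b.N0; omega⟩
  exact ⟨P, rfl, rfl, ok, P354YH.Sys.hier
    (h P m ⟨ok, o, hQ, hm, by change 2 * m + k ≤ b.N0; omega, le_rfl⟩ i4)⟩

end Vale.Agent.P354SI
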