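import Vale.Agent.P354SI.Sl
import Vale.Agent.P354BO.ParO
import Vale.Agent.P354BO.TwE
import Vale.Agent.P354XF.Uni

/-!
The ring of fields of a state, and the hypotheses of the estimate of top order.
-/

open scoped ContDiff
open MeasureTheory Set Filter

noncomputable section

namespace Vale.Agent.P354SI

open Vale.Agent.P354XG Vale.Agent.P354XD Vale.Agent.P354XR Vale.Agent.P354XI Vale.Agent.P354Z
open Vale.Agent.P354XT Vale.Agent.P354BO Vale.Agent.P354XF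
open Vale.Agent.P354EF (fldO fldO_is BO_J fv_fO)
open Vale.Agent.P354YH (wt sm Sys)

variable {P : Pr}

theorem out_L {A : Type*} [CommRing A] [Algebra ℂ A] {ι : Type} {b : Brg A ι} {t L L' : ℕ}
    {C d : ℝ} {φ : A →ₐ[ℂ] ℂ} (o : b.Out t L C d φ) (h : L' ≤ L) : b.Out t L' C d φ :=
  ⟨o.jets, o.up, fun a a' J e => o.del a a' J (e.trans h), fun σ J J' e => o.hon σ J J' (e.trans h),
    fun σ W J e1 e => o.eqY σ W J e1 (e.trans h), o.swap, o.eqA, o.eqR⟩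

namespace St
variable (σ : St P)

/-- The box and the ring of fields. -/
def U : Set (ℝ × ℝ) := Ioo (P.c.t1 - 1) (σ.T + P.c.c0 + 5) ×ˢ Ioo P.c.r0 σ.R2
def Ph (b : Bool) : Fld (Sm (on σ.E.O1)) := fldO σ.cone.op σ.U (sz b)
  (fun r => hs P.c.M (σ.E.M, σ.E.a, r)) fun r => js P.c.M (σ.E.M, σ.E.a, r)

theorem U_sub : cyl σ.U ⊆ σ.E.O1 := fun _ hx =>
  (σ.box hx.2 (le_trans (by linarith) hx.1.1.1.le) hx.1.1.2.le hx.1.2.1.le
    hx.1.2.2.le).1

theorem box_U {a b x y : ℝ} (h1 : P.c.t1 - 1 < a) (h2 : b < σ.T + P.c.c0 + 5) (h3 : P.c.r0 < x)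
    (h4 : y < σ.R2) : Icc a b ×ˢ Icc x y ⊆ σ.U := fun _ h =>
  ⟨⟨h1.trans_le h.1.1, h.1.2.trans_lt h2⟩, h3.trans_le h.2.1, h.2.2.trans_lt h4⟩

variable (b : Bool)

theorem Ph_is : (σ.Ph b).Is :=
  fldO_is σ.cone.op (cone_off σ.cone) σ.U_sub _ (sl_sm (hs_sm σ.M0) _ _) (sl_sm (js_sm σ.M0) _ _)

theorem Ph_par : (σ.Ph b).Par := fldO_par (sl_sm (js_sm σ.M0) _ _) σ.cone.op (cone_off σ.cone)
  (isOpen_Ioo.prod isOpen_Ioo) σ.U_sub _ (sl_sm (hs_sm σ.M0) _ _)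

theorem Ph_s : (σ.Ph b).s = sp b := by cases b <;> simp [Ph, fldO, sz, sp]

theorem Ph_X : (σ.Ph b).X = σ.X := by
  have : (kk σ.R.K σ.R.p).R = (σ.Ph b).R := by
    ext u
    rw [kk_R, σ.Rp, σ.RK]
    simp [Ph, fldO, Hp.kc, pI]
    rfl
  change _ = XX σ.R.K σ.R.p
  rw [XX, this, σ.RK]
  rfl

theorem hom : σ.R.brg.Hom (σ.Ph b) (AlgHom.id ℂ _) σ.E.M σ.E.a := by
  refine ⟨fun c f => by rw [σ.Ph_X]; rfl, ?_, ?_, ?_, ?_⟩
  · change σ.R.K.z 1 = _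
    rw [σ.RK]
    exact ext_fv σ.cone.op fun x hx => ((fv_z 1 hx).trans (by simp [zc, tr])).trans
      (fv_fO (φ := fun z => id z.2) contDiff_snd hx).symm
  · change ww σ.R.K 2 = _
    rw [σ.RK]
    rfl
  · change σ.R.p.M = _
    rw [σ.Rp]
    rfl
  · change σ.R.p.a = _
    rw [σ.Rp]
    rfl

theorem sec (F) (h : ∀ v, σ.R.brg.Y (vt v) F = wgt b v • F) : F ∈ (σ.Ph b).Sp := by
  have e : spn b = (sz b : ℤ) := by cases b <;> simp [spn, sz]
  have h1 : σ.R.K.H F = spn b • F := h false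
  have h2 : σ.R.K.B F = (-spn b) • F := h true
  rw [σ.RK, e] at h1 h2
  exact ⟨h1, h2.trans (neg_smul _ _)⟩

theorem f_sp (J) : σ.f b J ∈ (σ.Ph b).Sp := σ.sec b _ fun v => σ.R.brg_is.V_fm b v J

theorem re_del (c e : Fin 5) : (σ.Ph b).B.Re (σ.R.brg.del c e) := by
  have := σ.R.c_del c e
  rwa [σ.RK] at this

theorem oph_eq (M a : ℝ) (u) : ∀ e : Op, oph σ.X M a e u = e.ph (σ.Ph b) M a u
  | .one => rfl
  | .T e => by rw [oph, Op.ph, oph_eq M a u e, ← σ.Ph_X b]; rfl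
  | .R e => by rw [oph, Op.ph, oph_eq M a u e, ← σ.Ph_X b]; rfl
  | .F e => by rw [oph, Op.ph, oph_eq M a u e, ← σ.Ph_X b]; rfl
  | .mul c e => by rw [oph, Op.ph, oph_eq M a u e]; rfl
  | .add e e' => by rw [oph, Op.ph, oph_eq M a u e, oph_eq M a u e']

/-- The points of the ring of fields. -/
theorem pt_an (x : (σ.Ph b).B.Pt) : An x.1.1 :=
  (an_of fun e => x.2 ((P354EF.fv_bO x.1.2).trans (by simp [e]))).1

variable {σ} {a : ℝ} {c e : ℝ → ℝ}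

/-- The integral of the ring of fields over a slab. -/
theorem J_sl (ha : σ.Sa a) (hc : σ.Wc c) (hs : ContDiff ℝ ∞ c) (he : ∀ t, e t = bp (t - a)) (F) :
    (σ.Ph b).B.J ((σ.Ph b).tm e * (σ.Ph b).rad c * F) = sl a c (rv F) := by
  obtain rfl : e = fun t => bp (t - a) := funext he
  have s1 : ContDiff ℝ ∞ fun t => bp (t - a) := bp_sm.comp (contDiff_id.sub contDiff_const)
  obtain ⟨-, p, q, b1, b2, b3⟩ := id hc
  have k := (σ.Ph_is b).memK s1 hs (σ.box_U ha.1 ha.2 b1 b2)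
    (fun t d => bp_out fun e => d ⟨by linarith [e.1], by linarith [e.2]⟩) b3
  refine (BO_J σ.cone.op (Ideal.mul_mem_right F _ k)).trans (integral_congr_ae (.of_forall fun x => ?_))
  by_cases h : x ∈ σ.E.O1
  · have e1 : fv ((σ.Ph b).tm fun t => bp (t - a)) x = bp (x.1 - a) :=
      fv_fO (φ := fun p => bp (p.1 - a)) (s1.comp contDiff_fst) h
    have e2 : fv ((σ.Ph b).rad c) x = c x.2.1 := fv_fO (φ := fun p => c p.2) (hs.comp contDiff_snd) h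
    simp only [fv_mul, e1, e2, ← Complex.ofReal_mul, Complex.re_ofReal_mul, rv]
    ring
  · simp [rv, fv_out _ h]

theorem rv_sq (u) (x : E6) : rv ((σ.Ph b).sq u) x = ‖fv u x‖ ^ 2 := by
  rw [rv, Fld.sq, fv_mul, show (σ.Ph b).B.c u = cj u from rfl, fv_cj, Complex.mul_conj,
    Complex.ofReal_re, Complex.normSq_eq_norm_sq]

theorem rv_add {O : Set E6} (u v : Sm (on O)) (x : E6) : rv (u + v) x = rv u x + rv v x := by
  rw [rv, fv_add, Complex.add_re]; rfl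

theorem rv_sum {O : Set E6} {ι : Type} (s : Finset ι) (u : ι → Sm (on O)) (x : E6) :
    rv (∑ i ∈ s, u i) x = ∑ i ∈ s, rv (u i) x := by
  classical
  induction s using Finset.induction_on with
  | empty => simp [rv, fv_zero]
  | insert i s h ih => rw [Finset.sum_insert h, Finset.sum_insert h, rv_add, ih]

theorem rv_rl {O : Set E6} (t : ℝ) (u : Sm (on O)) (x : E6) : rv (Ibp.rl _ t * u) x = t * rv u x := by
  rw [rv, Ibp.rl, ← Algebra.smul_def, fv_smul, Complex.re_ofReal_mul]; rfl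

theorem rv_lv (m : ℕ) (g) (x : E6) :
    rv ((σ.Ph b).lv m g) x = ∑ J ∈ words m, ‖fv (g J) x‖ ^ 2 := by
  simp only [Fld.lv, rv_sum, rv_sq]

theorem lv_eq (m : ℕ) (x : E6) :
    σ.lv m x = rv ((σ.Ph true).lv m (σ.f true)) x + rv ((σ.Ph false).lv m (σ.f false)) x := by
  rw [rv_lv, rv_lv, lv, Fintype.sum_bool]

theorem rv_lv2 (m : ℕ) (x : E6) :
    rv (σ.R.brg.lv2 (σ.Ph b) (AlgHom.id ℂ _) m) x = σ.lv m x := by
  rw [Brg.lv2, rv_add, rv_lv, rv_lv, lv, Fintype.sum_bool]; rfl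

theorem lv_le (m : ℕ) (x : E6) : rv ((σ.Ph b).lv m (σ.f b)) x ≤ σ.lv m x := by
  rw [rv_lv]
  exact Finset.single_le_sum (f := fun b => ∑ J ∈ words m, ‖fv (σ.f b J) x‖ ^ 2)
    (fun _ _ => by positivity) (Finset.mem_univ b)

end St

/-- The smooth weight in time. -/
def om (P : Pr) (t : ℝ) : ℝ := (1 + (t - P.c.t1) ^ 2) ^ (-P.c.s0 / 2)

theorem om_sm : ContDiff ℝ ∞ (om P) :=
  ContDiff.rpow_const_of_ne (by fun_prop) fun t => by positivity

theorem om_le (hP : P.Ok) {t : ℝ} {j : ℕ} (h : P.c.t1 + j ≤ t) : om P t ≤ 2 * wt (-P.c.s0) j := by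
  have a : (0 : ℝ) ≤ j := j.cast_nonneg
  have b : ((1 + j) / 2 : ℝ) ^ (2 : ℝ) * 2 ≤ 1 + (t - P.c.t1) ^ 2 := by
    rw [Real.rpow_two]
    nlinarith [sq_nonneg (1 - j : ℝ), mul_self_le_mul_self a (le_sub_iff_add_le'.2 h)]
  refine (Real.rpow_le_rpow_of_nonpos (by positivity) b (by linarith [hP.s1])).trans ?_
  rw [Real.mul_rpow (by positivity) zero_le_two, ← Real.rpow_mul (by positivity),
    show 2 * (-P.c.s0 / 2) = -P.c.s0 by ring, Real.div_rpow (by positivity) zero_le_two,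
    div_mul_eq_mul_div, mul_div_assoc, ← Real.rpow_sub two_pos, mul_comm]
  refine mul_le_mul_of_nonneg_right ?_ (by positivity)
  exact (Real.rpow_le_rpow_of_exponent_le one_le_two (by linarith [hP.s3])).trans_eq
    (Real.rpow_one 2)

theorem le_om (hP : P.Ok) {t : ℝ} {j : ℕ} (h0 : P.c.t1 ≤ t) (h : t ≤ P.c.t1 + j) :
    wt (-P.c.s0) j ≤ om P t := by
  have b : 1 + (t - P.c.t1) ^ 2 ≤ (1 + j : ℝ) ^ (2 : ℝ) := by
    rw [Real.rpow_two]
    nlinarith [mul_self_le_mul_self (sub_nonneg.2 h0) (sub_le_iff_le_add'.2 h),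
      j.cast_nonneg (α := ℝ)]
  refine le_trans (le_of_eq ?_) (Real.rpow_le_rpow_of_nonpos (by positivity) b
    (by linarith [hP.s1]))
  rw [← Real.rpow_mul (by positivity), show 2 * (-P.c.s0 / 2) = -P.c.s0 by ring, wt]

/-- The data of the estimate of top order on the slabs k1, …, k2; t is the top level. -/
def St.dat (σ : St P) (b : Bool) (t : ℕ) (C : ℝ) (k1 k2 : ℕ) : Dat (Sm (on σ.E.O1)) where
  f := σ.f b
  rho := (σ.Ph b).tm (fun s => (C * σ.eps * om P s) ^ 2) * σ.R.brg.lv2 (σ.Ph b) (AlgHom.id ℂ _) t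
  del := σ.R.brg.del
  h j := 2 * C * fh P σ (k1 + j)
  t1 := P.c.t1 + k1
  K := k2 - k1
  r00 := P.c.r0 + P.c.d
  ch := P.ch

/-- The density of the errors on a slab. -/
theorem St.rho_le (hP : P.Ok) (σ : St P) (b : Bool) (t : ℕ) {C : ℝ} (hC : 0 ≤ C) (k1 k2 j : ℕ)
    {x : E6} (hx : x ∈ σ.E.O1) (h : P.c.t1 + (k1 + j : ℕ) ≤ x.1) :
    rv (σ.dat b t C k1 k2).rho x ≤ (σ.dat b t C k1 k2).h j ^ 2 * σ.lv t x := by
  have e1 : fv ((σ.Ph b).tm fun s => (C * σ.eps * om P s) ^ 2) x = ((C * σ.eps * om P x.1) ^ 2 : ℝ) :=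
    fv_fO (φ := fun p => (C * σ.eps * om P p.1) ^ 2)
      (((contDiff_const.mul om_sm).pow 2).comp contDiff_fst) hx
  rw [← St.rv_lv2 b, St.dat, rv, fv_mul, e1, Complex.re_ofReal_mul]
  refine mul_le_mul_of_nonneg_right (pow_le_pow_left₀ (mul_nonneg (mul_nonneg hC σ.e0.le)
    (by unfold om; positivity)) ?_ 2) ((σ.lv_nn t x).trans_eq (St.rv_lv2 b t x).symm)
  exact (mul_le_mul_of_nonneg_left (om_le hP h) (mul_nonneg hC σ.e0.le)).trans_eq
    (by simp only [fh]; ring)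

/-- The hypotheses of the estimate of top order. -/
theorem fam (hP : P.Ok) (hD : DICT P) {n : ℕ} (hn : n + 12 ≤ P.c.N0) (k : ℕ) (R0 : ℝ) :
    ∃ Cf, ∀ R1, 3 * R0 ≤ 4 * R1 → ∃ C, 0 < C ∧ ∀ eps, 0 < eps → ∀ᶠ σ in F0 P (n + k + 1),
      ∀ b k1 k2, k1 + 2 ≤ k2 → k2 ≤ σ.K + 2 → Fam (σ.Ph b) (σ.dat b (n + k + 1) C k1 k2)
        σ.E.M σ.E.a n k Cf (P.c.r0 + P.c.d) P.rI R0 R1 eps := by
  obtain ⟨C0, c0, h0⟩ := hD (n + k + 1) 1 (3 * R0)
  refine ⟨2 * C0 ^ 2, fun R1 hR => ?_⟩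
  obtain ⟨C1, c1, h1⟩ := hD (n + k + 1) 1 (4 * R1)
  obtain ⟨C2, a1, a2⟩ : ∃ C2, 2 * C0 ≤ C2 ∧ C1 ≤ C2 := ⟨_, le_max_left _ _, le_max_right _ _⟩
  have c2 := c1.trans_le a2
  refine ⟨C2 * C2, mul_pos c2 c2, fun eps e => ?_⟩
  filter_upwards [h0, h1, ev_R _ (4 * R1 + 1), ev_e _ (div_pos e (show 0 < 2 * (C2 * C2) by
    positivity))] with σ h0 h1 r2 e1 b k1 k2 hk hK
  have kc : ((k2 - k1 : ℕ) : ℝ) = k2 - k1 := Nat.cast_sub (by omega)
  have k0 : (0 : ℝ) ≤ k1 := k1.cast_nonneg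
  have o : ∀ {C ρ}, 0 < C → C ≤ C2 → (∀ (x : σ.E.O1) (j : ℕ), An x → x.1.2.1 ≤ ρ →
      |x.1.1 - P.c.t1 - j| ≤ (1 : ℕ) → σ.R.brg.Out (n + k + 1) (P.c.N0 - 10) C (C * fh P σ j)
        ⟨evO x, fun z => fv_alg z x.2⟩) → ∀ x : (σ.Ph b).B.Pt, P.c.t1 ≤ x.1.1.1 →
      x.1.1.2.1 ≤ ρ → σ.R.brg.Out (n + k + 1) (n + 2) C (C2 * σ.eps * om P x.1.1.1)
        ((evA (σ.Ph_is b).B x).comp (AlgHom.id ℂ _)) := fun {C ρ} c0 c1 h x t1 hr => by
    have a := Nat.le_ceil (x.1.1.1 - P.c.t1)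
    have a' := Nat.ceil_lt_add_one (sub_nonneg.2 t1)
    refine (out_L (h x.1 ⌈x.1.1.1 - P.c.t1⌉₊ (σ.pt_an b x) hr (abs_le.2 ⟨?_, ?_⟩))
      (by omega)).mono (mul_pos c0 (fh_pos _ _)).le c0.le le_rfl ?_
    · push_cast; linarith
    · push_cast; linarith
    · rw [mul_assoc]
      exact mul_le_mul c1 (mul_le_mul_of_nonneg_left (le_om hP t1 (by linarith)) σ.e0.le)
        (fh_pos _ _).le c2.le
  have rt := Brg.rho_tm (b := σ.R.brg) (π := AlgHom.id ℂ _) (σ.Ph_is b)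
    (e := fun s => C2 * C2 * σ.eps * om P s) (contDiff_const.mul om_sm) (n + k + 1)
  have op : ∀ t, 0 ≤ om P t := fun t => by unfold om; positivity
  refine Brg.fam (C1 := C2) (d := fun x => C2 * σ.eps * om P x.1.1.1) (σ.Ph_is b) (σ.hom b)
    σ.R.brg_is (σ.Ph_s b) (σ.sec b) (σ.re_del b) rfl rfl (by change 2 ≤ k2 - k1; omega)
    (σ.box_U ?_ ?_ (lt_add_of_pos_right _ σ.d_pos) (by linarith)) (up_sm _ _)
    (fun r r' h => Real.smoothTransition.monotone (div_le_div_of_nonneg_right (by linarith)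
      (by linarith [hP.rI.1]))) (fun r h => up_zero hP.rI.1 h) (fun r h => hP.ch_one h) le_rfl
    (fun j => ⟨mul_pos (by positivity) (fh_pos _ _), ?_⟩) rt.1
    (fun x => (rt.2 x).symm ▸ mul_nonneg (sq_nonneg _) (Brg.lv2_nn (σ.Ph_is b) x _)) hR
    (by nlinarith) (fun x _ => ((rt.2 x).trans (by rw [← mul_assoc, ← mul_assoc]; rfl)).ge)
    (fun j _ x hx => ?_) (fun x hx => (o c1 a2 (fun x j a b c => (h1.2 x j a b c).1) x ?_ hx.2.2).mono
      (mul_nonneg (mul_pos c2 σ.e0).le (op _)) c1.le a2 le_rfl)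
    fun x hx => o c0 (by linarith) (fun x j a b c => (h0.2 x j a b c).1) x ?_ hx.2.2
  · change _ < P.c.t1 + k1
    linarith
  · change P.c.t1 + k1 + (k2 - k1 : ℕ) + 2 < _
    have := (σ.sa hK).2
    linarith
  · have := (le_div_iff₀' (show 0 < 2 * (C2 * C2) by positivity)).1 e1.1
    refine le_trans (mul_le_mul_of_nonneg_left (mul_le_of_le_one_right σ.e0.le ?_)
      (by positivity)) this
    exact Real.rpow_le_one_of_one_le_of_nonpos (by linarith [(k1 + j).cast_nonneg (α := ℝ)])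
      (by linarith [hP.s1])
  · have : P.c.t1 + (k1 + j : ℕ) ≤ x.1.1.1 := by
      push_cast; exact (add_assoc _ _ _).ge.trans hx.1.1
    have := mul_le_mul_of_nonneg_left (om_le hP this) (show 0 ≤ C2 * C2 * σ.eps by
      have := σ.e0; positivity)
    change _ ≤ 2 * (C2 * C2) * (σ.eps * _)
    linarith
  · exact (le_add_of_nonneg_right k0).trans hx.1.1
  · exact (le_add_of_nonneg_right k0).trans hx.1.1

end Vale.Agent.P354SI
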