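import Vale.Agent.P354SI.One

/-!
The near estimate.
-/

open scoped ContDiff
open Filter Finset

noncomputable section

namespace Vale.Agent.P354SI

open Vale.Agent.P354XG Vale.Agent.P354XI Vale.Agent.P354Z Vale.Agent.P354XT Vale.Agent.P354BO
open Vale.Agent.P354YH (Sys)

variable {P : Pr}

theorem Pr.Ok.nb (hP : P.Ok) (b : Bool) : P.n b + 13 ≤ P.n0 ∧ P.n b + 12 ≤ P.c.N0 := by
  have := hP.N0
  have : P.n b ≤ max (P.n true) (P.n false) := by cases b <;> simp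
  unfold Pr.n0 at *
  omega

theorem one (hP : P.Ok) (hD : DICT P) (hT : P.Tp) (b : Bool) {m : ℕ} (hm : P.n b ≤ m) :
    ∃ Rs, ∀ R0, Rs ≤ R0 → ∃ C0, 0 ≤ C0 ∧ ∀ R1, 20 * R0 ≤ R1 → ∀ ε > 0, ∃ C, 0 ≤ C ∧
    ∀ᶠ σ in F0 P (m + 1), ∀ k1 k2 : ℕ, k1 + 2 ≤ k2 → k2 ≤ σ.K →
      sl (P.c.t1 + k2) (wn P R0) (σ.lb b (m + 1)) + ∑ j ∈ Icc k1 k2,
        (sl (P.c.t1 + j) (wx P R0) (σ.lb b (m + 1)) + sl (P.c.t1 + j) (wn P R0) (σ.lb b m)) ≤
      C0 * ∑ j ∈ Icc k1 k2, fG P (m + 1) R1 σ j +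
      ε * (∑ j ∈ Icc (k2 - 3) k2, fy P (m + 1) (4 * R1) σ j +
        ∑ j ∈ Icc k1 k2, fx P (m + 1) (4 * R1) σ j) +
      C * (∑ j ∈ Icc k1 (k1 + 2), fy P (m + 1) (4 * R1) σ j + ∑ j ∈ Icc k1 k2,
        (fy P (m - 1) (4 * R1) σ j + fh P σ j * fy P (m + 1) (4 * R1) σ j)) := by
  obtain ⟨rI, p1, p2, p3, p4, Rs, a1, a2, a3, hT⟩ := hT b
  obtain ⟨k, rfl⟩ := Nat.exists_eq_add_of_le hm
  refine ⟨max Rs (max (2 * P.rb) 1), fun R0 hR => ?_⟩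
  simp only [max_le_iff] at hR
  obtain ⟨Cf, hF⟩ := fam hP hD (hP.nb b).2 k (5 * R0)
  obtain ⟨C0, hT⟩ := hT k Cf R0 hR.1
  refine ⟨|C0| * (words (P.n b + 1)).card, by positivity, fun R1 h1 ε e0 => ?_⟩
  obtain ⟨Cd, cd, hF⟩ := hF R1 (by linarith [hR.2.2])
  obtain ⟨Cu, cu, hU⟩ := hD (P.n b + k + 1) 2 (4 * R1)
  obtain ⟨C1, dl, eps, d0, e1, hT⟩ := hT R1 h1 (ε / Cu) (div_pos e0 cu)
  refine ⟨|C1| * (Cu * (1 + 4 * Cd)), by positivity, ?_⟩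
  filter_upwards [hF eps e1, hU, ev_R _ (4 * R1 + 2), ev_e _ (div_pos (half_pos d0) cu)] with σ
    hF hU r2 e2 k1 k2 hk hK
  have pa : Cu * σ.eps < dl := ((le_div_iff₀' cu).1 e2.1).trans_lt (half_lt_self d0)
  have F := hF b k1 k2 hk (by omega)
  have := hT _ _ (by linarith [hU.1, abs_nonneg (σ.E.a - P.c.a)])
    (by linarith [hU.1, abs_nonneg (σ.E.M - P.c.M)]) _ _ _ (σ.Ph_is b) (σ.Ph_par b) (σ.Ph_s b) rfl
    { F with ch1 := fun r h => F.ch1 r (a1.trans h) } (k2 - k1) le_rfl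
  have h : Cx σ (P.n b + k) k1 k2 R0 R1 Cu := ⟨hP, hk, hK, hR.2.1, hR.2.2, h1, r2, cu,
    fun j hm x a1 a2 a3 a4 => ((hU.2 ⟨x, a1⟩ j a2 a3 (by exact_mod_cast a4)).2 _ hm).2⟩
  have k12 : k1 ≤ k2 := by omega
  have z1 := h.s b Cd (lt_add_one _) h.w1 ((up_sm _ _).mul (dn_sm _ _))
    ((σ.Ph b).lv (P.n b + k + 1) (σ.f b))
  rw [Nat.add_sub_cancel' k12] at z1
  have g3 := fun j (hj : j ∈ range _) => h.g3 b Cd (mem_range.1 hj) (Nat.add_sub_cancel_left _ _)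
  have z2 := sum_le_sum fun j (hj : j ∈ range _) =>
    h.g4 b Cd (mem_range.1 hj) (p1 := p1) (p2 := p2) a2 a3
  have z3 := sum_le_sum fun j hj => (g3 j hj).2
  have z4 := sum_le_sum fun j (hj : j ∈ range _) => h.g1 b Cd (mem_range.1 hj)
  have z6 := sum_le_sum fun j (hj : j ∈ Icc (k2 - k1 - 3) (k2 - k1)) =>
    h.lf b Cd (Nat.lt_succ_of_le (mem_Icc.1 hj).2) le_rfl
  rw [← mul_sum] at z3 z4 z6
  rw [sum_sh (fG P _ R1 σ) k12] at z3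
  rw [sum_sh (fx P _ _ σ) k12] at z4
  rw [sum_sh (fun j => sl (P.c.t1 + j) (wx P R0) _ + sl (P.c.t1 + j) (wn P R0) _) k12] at z2
  replace z6 := z6.trans (mul_le_mul_of_nonneg_left (sum_last (fy_nn _ _ σ) k12) cu.le)
  have y1 := (mul_le_mul_of_nonneg_right (le_abs_self C0)
    (sum_nonneg fun j hj => (g3 j hj).1)).trans (mul_le_mul_of_nonneg_left z3 (abs_nonneg C0))
  have y2 := mul_le_mul_of_nonneg_left (add_le_add z6 z4) (div_pos e0 cu).le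
  rw [← mul_add, ← mul_assoc, div_mul_cancel₀ _ cu.ne'] at y2
  have y3 := (mul_le_mul_of_nonneg_right (le_abs_self C1) (h.rest b Cd cd).1).trans
    (mul_le_mul_of_nonneg_left (h.rest b Cd cd).2 (abs_nonneg C1))
  exact (add_le_add z1.ge z2).trans (this.trans (add_le_add (add_le_add
    (y1.trans_eq (mul_assoc _ _ _).symm) y2) (y3.trans_eq (mul_assoc _ _ _).symm)))

/-- The functionals are bounded by the densities of the two families. -/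
theorem dn_bd {σ : St P} {c c' : ℝ → ℝ} {m j : ℕ} {C R : ℝ} (hj : j ≤ σ.K) (C0 : 0 ≤ C)
    (hc : σ.Wc fun r => c r * σ.out R r) (hc' : σ.Wc c') (c0 : ∀ r, 0 ≤ c r ∧ 0 ≤ c' r)
    (w : ∀ r, r ≤ R + 1 → c' r = c r)
    (d : ∀ x ∈ σ.E.O1, An x → x.2.1 ≤ R + 1 → |x.1 - P.c.t1 - j| ≤ 2 →
      σ.E.eta m x ≤ C * σ.lv m x) : σ.sj j (fun r => c r * σ.out R r) (σ.E.eta m) ≤
      C * (sl (P.c.t1 + j) c' (σ.lb true m) + sl (P.c.t1 + j) c' (σ.lb false m)) := by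
  rw [St.sj_eq hj, mul_add]
  refine St.sl_le2 (σ.sa (by omega)) hc hc' hc' (σ.cn_eta m) (σ.cn_rv _) (σ.cn_rv _)
    fun x a1 a2 a3 a4 => ?_
  have n1 := σ.lb_nn true m x
  have n2 := σ.lb_nn false m x
  have n3 := (c0 x.2.1).2
  rcases le_total x.2.1 (R + 1) with r | r
  · have := d x a1 a2 r (abs_le.2 ⟨by linarith, by linarith⟩)
    rw [St.lv_eq] at this
    rw [w _ r]
    exact (mul_le_mul (mul_le_of_le_one_right (c0 _).1 (dn_le _ _ _)) this (σ.eta_nn m x)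
      (c0 _).1).trans_eq (by unfold St.lb; ring)
  · rw [St.out_zero r, mul_zero, zero_mul]
    positivity

variable {G : ℕ → Filter (St P)} {Γ : ℕ → ℝ → St P → ℕ → ℝ}

theorem lo_ge (hf : (sys P G Γ).Form) {m : ℕ} (R : ℝ) (σ : St P) (j : ℕ) :
    fy P (m - 1) R σ j ≤ (sys P G Γ).lo (m + 1) R σ j := by
  unfold Sys.lo
  split_ifs with e
  · exact hf.ym (by change m + 1 = P.n0 at e; omega) le_rfl σ j
  · exact le_add_of_nonneg_right (hf.x0 _ _ _ _)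

theorem lo_mono (hf : (sys P G Γ).Form) (n : ℕ) {R R' : ℝ} (h : R ≤ R') (σ : St P) (j : ℕ) :
    (sys P G Γ).lo n R σ j ≤ (sys P G Γ).lo n R' σ j := by
  unfold Sys.lo
  split_ifs
  exacts [hf.im h σ j, add_le_add (hf.ym le_rfl h σ j) (hf.xm le_rfl h σ j)]

/-- The near estimate. -/
theorem near (hP : P.Ok) (hD : DICT P) (hT : P.Tp) (hf : (sys P G Γ).Form) (hX : GDX P G Γ) :
    (sys P G Γ).NEAR := fun n hn R => by
  have nb := fun b => (hP.nb b).1.trans hn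
  obtain ⟨m, rfl⟩ : ∃ m, n = m + 1 := ⟨n - 1, by have := nb true; omega⟩
  choose Rs h using fun b => one hP hD hT b (m := m) (by have := nb b; omega)
  obtain ⟨R0, r1, r2, r3⟩ : ∃ R0, (∀ b, Rs b ≤ R0) ∧ R + 1 ≤ 2 * R0 ∧ 1 ≤ R0 :=
    ⟨max (max (Rs true) (Rs false)) (|R| + 1), fun b => le_max_of_le_left (by cases b <;> simp),
      by linarith [le_max_right (max (Rs true) (Rs false)) (|R| + 1), le_abs_self R, abs_nonneg R],
      le_max_of_le_right (by linarith [abs_nonneg R])⟩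
  choose C0 c0 h using fun b => h b R0 (r1 b)
  obtain ⟨Cr, cr, hr⟩ := hD (m + 1) 2 (R + 1)
  obtain ⟨Cg, Rg, cg, hX⟩ := hX (m + 1) hn
  have s0 := add_nonneg (c0 true) (c0 false)
  refine ⟨Cr * (C0 true + C0 false) * Cg, by positivity, fun R2 => ?_⟩
  obtain ⟨R1, q1, q2, q3⟩ : ∃ R1, R2 ≤ R1 ∧ 20 * R0 ≤ R1 ∧ Rg ≤ R1 :=
    ⟨max R2 (max _ _), le_max_left _ _, le_max_of_le_right (le_max_left _ _),
      le_max_of_le_right (le_max_right _ _)⟩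
  obtain ⟨R4, Cx, cx, hX⟩ := hX R1 q3
  refine ⟨R1, q1, 4 * R1, fun ε e0 => ?_⟩
  choose C c1 h using fun b => h b R1 q2 (ε / (2 * Cr)) (by positivity)
  have s1 := add_nonneg (c1 true) (c1 false)
  refine ⟨max R4 (4 * R1), Cr * (C true + C false) + Cr * (C0 true + C0 false) * Cx, by positivity,
    ?_⟩
  filter_upwards [ev_sys (h true), ev_sys (h false), ev_sys hr, hX, ev_sys (ev_R _ (2 * R0 + 2))]
    with σ h1 h2 hr hX r4 k1 k2 hk hK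
  have w1 : σ.Wc (wn P R0) :=
    St.wc_of (lt_add_of_pos_right _ σ.d_pos) hP.rI.1 (lt_add_one _) (by linarith)
  have w2 : σ.Wc (wx P R0) := St.wc_of (by linarith [hP.rI.1, hP.rb, σ.d_pos]) (sub_one_lt _)
    (lt_add_one _) (by linarith)
  have o : ∀ r, r ≤ R + 1 → dn (2 * R0) (2 * R0 + 1) r = 1 :=
    fun r h => dn_one (lt_add_one _) (h.trans r2)
  have d : ∀ {i} (j : ℕ), i ≤ m + 1 → ∀ x ∈ σ.E.O1, An x → x.2.1 ≤ R + 1 →
      |x.1 - P.c.t1 - j| ≤ 2 → σ.E.eta i x ≤ Cr * σ.lv i x :=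
    fun j hm x a1 a2 a3 a4 => ((hr.2 ⟨x, a1⟩ j a2 a3 (by exact_mod_cast a4)).2 _ hm).1
  have dy : ∀ {i} j, j ≤ σ.K → i ≤ m + 1 → fy P i R σ j ≤ _ := fun j hj hi =>
    dn_bd hj cr.le (St.wc_y hP σ R) w1 (fun r => ⟨up_nonneg _ _ _, mul_nonneg (up_nonneg _ _ _)
      (dn_nonneg _ _ _)⟩) (fun r h => by rw [wn, o r h, mul_one]) (d j hi)
  have dx : ∀ j, j ≤ σ.K → fx P (m + 1) R σ j ≤ _ := fun j hj =>
    dn_bd hj cr.le (St.wc_x hP σ R) w2 (fun r => ⟨up_nonneg _ _ _, mul_nonneg (up_nonneg _ _ _)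
      (dn_nonneg _ _ _)⟩) (fun r h => by rw [wx, o r h, mul_one]) (d j le_rfl)
  have le : ∀ j ∈ Icc k1 k2, j ≤ σ.K := fun j hj => (mem_Icc.1 hj).2.trans hK
  have z1 := sum_le_sum fun j hj => add_le_add (dy j (le j hj) m.le_succ) (dx j (le j hj))
  have z2 := sum_le_sum fun j hj => hX j (le j hj)
  have z3 : ∑ j ∈ Icc k1 k2, fx P (m + 1) (4 * R1) σ j ≤
      ∑ j ∈ Icc k1 k2, (sys P G Γ).B (m + 1) (4 * R1) σ j :=
    sum_le_sum fun j _ => le_add_of_nonneg_left (hf.y0 _ _ _ _)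
  have z4 := sum_le_sum fun j (_ : j ∈ Icc k1 (k1 + 2)) =>
    hf.ym (le_refl (m + 1)) (le_max_right R4 (4 * R1)) σ j
  have hy : ∀ {R}, R ≤ max R4 (4 * R1) → ∀ j, (sys P G Γ).hy (m + 1) R σ j ≤
      (sys P G Γ).hy (m + 1) (max R4 (4 * R1)) σ j := fun h j =>
    mul_le_mul_of_nonneg_left (hf.ym le_rfl h σ j) (hf.h0 σ j)
  have z5 := sum_le_sum fun j (_ : j ∈ Icc k1 k2) => add_le_add ((lo_ge hf (m := m) _ σ j).trans
    (lo_mono hf _ (le_max_right R4 (4 * R1)) σ j)) (hy (le_max_right _ _) j)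
  have z6 := sum_le_sum fun j (_ : j ∈ Icc k1 k2) =>
    add_le_add (lo_mono hf (m + 1) (le_max_left R4 (4 * R1)) σ j) (hy (le_max_left _ _) j)
  have n1 := sum_nonneg fun j (_ : j ∈ Icc k1 (k1 + 2)) => hf.y0 (m + 1) (max R4 (4 * R1)) σ j
  have y0 := mul_le_mul_of_nonneg_left (add_le_add (h1 k1 k2 hk hK) (h2 k1 k2 hk hK)) cr.le
  have y1 := dy k2 hK le_rfl
  rw [sum_add_distrib, ← mul_sum, ← mul_sum] at z2
  have y2 := mul_le_mul_of_nonneg_left z2 (mul_nonneg cr.le s0)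
  have y3 := mul_le_mul_of_nonneg_left z3 e0.le
  have y4 := mul_le_mul_of_nonneg_left (add_le_add z4 z5) (mul_nonneg cr.le s1)
  have y5 := mul_le_mul_of_nonneg_left (z6.trans (le_add_of_nonneg_left n1))
    (mul_nonneg (mul_nonneg cr.le s0) cx)
  have y6 : Cr * (ε / (2 * Cr)) = ε / 2 := by field_simp
  simp only [sum_add_distrib, ← mul_sum, mul_add, ← mul_assoc, y6, Sys.B, Sys.hy, sys,
    Nat.add_sub_cancel] at z1 y0 y1 y2 y3 y4 y5 ⊢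
  linarith

end Vale.Agent.P354SI
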